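import Vale.Agent.P134.R3.Iface

set_option linter.all false

/-! Calculus of `φ = √2 artanh u` and `q = 1 - |Dφ|²`. -/

namespace Vale.Agent.P134.R3

open Vale.Agent.P134 MeasureTheory Set Filter Topology
open scoped ENNReal

variable {u : V3 → ℝ}

lemma sqrt2_pos : (0:ℝ) < Real.sqrt 2 := by positivity
lemma sqrt2_sq : Real.sqrt 2 ^ 2 = 2 := Real.sq_sqrt (by norm_num)

lemma one_add_pos (h1 : ∀ x, |u x| < 1) (x : V3) : 0 < 1 + u x := by
  have := (abs_lt.1 (h1 x)).1; linarith
lemma one_sub_pos (h1 : ∀ x, |u x| < 1) (x : V3) : 0 < 1 - u x := by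
  have := (abs_lt.1 (h1 x)).2; linarith
lemma psi_pos (h1 : ∀ x, |u x| < 1) (x : V3) : 0 < psi u x := by
  have := mul_pos (one_add_pos h1 x) (one_sub_pos h1 x)
  unfold psi; nlinarith

lemma ph_contDiff (hu : Sol u) (h1 : ∀ x, |u x| < 1) (k : ℕ) : ContDiff ℝ k (ph u) := by
  have hk : ContDiff ℝ k u := SM.Sol.contDiff_nat hu k
  unfold ph
  exact contDiff_const.mul
    (((contDiff_const.add hk).log fun x => (one_add_pos h1 x).ne').sub
      ((contDiff_const.sub hk).log fun x => (one_sub_pos h1 x).ne'))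

lemma pd_ph (hu : Sol u) (h1 : ∀ x, |u x| < 1) (i : Fin 3) (x : V3) :
    pd i (ph u) x = Real.sqrt 2 / psi u x * pd i u x := by
  have hk : ContDiff ℝ 1 u := SM.Sol.contDiff_nat hu 1
  have hd : DifferentiableAt ℝ u x := hk.differentiable (by norm_num) x
  have a := one_add_pos h1 x
  have b := one_sub_pos h1 x
  have d1 : DifferentiableAt ℝ (fun y => Real.log (1 + u y)) x :=
    (hd.const_add 1).log a.ne'
  have d2 : DifferentiableAt ℝ (fun y => Real.log (1 - u y)) x :=
    (hd.const_sub 1).log b.ne'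
  have e1 : pd i (fun y => Real.log (1 + u y)) x = pd i u x / (1 + u x) := by
    rw [pd_comp (h := Real.log) (f := fun y => 1 + u y) (Real.differentiableAt_log a.ne')
      (hd.const_add 1), pd_add (by fun_prop) hd, pd_const, Real.deriv_log]
    field_simp; ring
  have e2 : pd i (fun y => Real.log (1 - u y)) x = - (pd i u x / (1 - u x)) := by
    rw [pd_comp (h := Real.log) (f := fun y => 1 - u y) (Real.differentiableAt_log b.ne')
      (hd.const_sub 1), pd_sub (by fun_prop) hd, pd_const, Real.deriv_log]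
    field_simp; ring
  have e : ph u = fun y => (fun _ => Real.sqrt 2 / 2) y
      * (fun y => Real.log (1 + u y) - Real.log (1 - u y)) y := rfl
  have d3 : DifferentiableAt ℝ (fun y => Real.log (1 + u y) - Real.log (1 - u y)) x := d1.sub d2
  rw [e, pd_mul (by fun_prop) d3, pd_const, pd_sub d1 d2, e1, e2]
  have hp : psi u x = (1 + u x) * (1 - u x) := by unfold psi; ring
  rw [hp]
  field_simp
  ring

lemma gs_ph (hu : Sol u) (h1 : ∀ x, |u x| < 1) (x : V3) :
    SM.gs (ph u) x = 2 * SM.gs u x / psi u x ^ 2 := by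
  unfold SM.gs
  simp_rw [pd_ph hu h1, mul_pow, div_pow, sqrt2_sq]
  rw [← Finset.mul_sum]
  ring

lemma qq_eq (hu : Sol u) (h1 : ∀ x, |u x| < 1) (x : V3) :
    qq u x = 2 * defi u x / psi u x ^ 2 := by
  have hp := psi_pos h1 x
  unfold qq
  rw [gs_ph hu h1]
  unfold defi SM.gs
  field_simp

lemma qq_nonneg (hu : Sol u) (h1 : ∀ x, |u x| < 1) (x : V3) : 0 ≤ qq u x := by
  rw [qq_eq hu h1]
  have := hu.defi_nonneg x
  have hp := psi_pos h1 x
  positivity

lemma gs_ph_le (hu : Sol u) (h1 : ∀ x, |u x| < 1) (x : V3) : SM.gs (ph u) x ≤ 1 := by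
  have := qq_nonneg hu h1 x
  unfold qq at this; linarith

lemma qq_le_one (u : V3 → ℝ) (x : V3) : qq u x ≤ 1 := by
  have := SM.gs_nonneg (ph u) x
  unfold qq; linarith

lemma gs_contDiff {f : V3 → ℝ} {k : ℕ} (hf : ContDiff ℝ (k + 1) f) : ContDiff ℝ k (SM.gs f) := by
  unfold SM.gs
  exact ContDiff.sum fun i _ => (contDiff_pd hf).pow 2

lemma qq_contDiff (hu : Sol u) (h1 : ∀ x, |u x| < 1) (k : ℕ) : ContDiff ℝ k (qq u) := by
  unfold qq
  exact contDiff_const.sub (gs_contDiff (by exact_mod_cast ph_contDiff hu h1 (k + 1)))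

/-- derivative along a segment -/
lemma hasDerivAt_seg {f : V3 → ℝ} (hf : Differentiable ℝ f) (x v : V3) (t : ℝ) :
    HasDerivAt (fun s : ℝ => f (x + s • v)) (∑ i, v i * pd i f (x + t • v)) t := by
  have h := hasDerivAt_dir (w := f) (x := x) (v := v) (s := t) (hf _)
  rw [fderiv_eq_sum_pd] at h
  exact h

lemma abs_dot_le (a b : V3) : |∑ i, a i * b i| ≤ eno a * eno b := by
  have h := Finset.sum_mul_sq_le_sq_mul_sq Finset.univ a b
  have h2 : (∑ i, a i * b i) ^ 2 ≤ (eno a * eno b) ^ 2 := by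
    rw [mul_pow, eno_sq, eno_sq]; exact h
  exact abs_le_of_sq_le_sq h2 (mul_nonneg (eno_nonneg a) (eno_nonneg b))

lemma abs_dir_le (f : V3 → ℝ) (v x : V3) :
    |∑ i, v i * pd i f x| ≤ eno v * Real.sqrt (SM.gs f x) :=
  abs_dot_le v (gr f x)

lemma eno_smul (t : ℝ) (v : V3) : eno (t • v) = |t| * eno v := by
  unfold eno esq
  rw [← Real.sqrt_sq_eq_abs, ← Real.sqrt_mul (sq_nonneg t), Finset.mul_sum]
  congr 1
  refine Finset.sum_congr rfl fun i _ => ?_
  simp only [Pi.smul_apply, smul_eq_mul]; ring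

lemma eno_add_le (a b : V3) : eno (a + b) ≤ eno a + eno b := by
  have h := abs_dot_le a b
  have h2 : eno (a + b) ^ 2 ≤ (eno a + eno b) ^ 2 := by
    rw [eno_sq, add_sq, eno_sq, eno_sq]
    have : esq (a + b) = esq a + 2 * (∑ i, a i * b i) + esq b := by
      unfold esq
      rw [Finset.mul_sum, ← Finset.sum_add_distrib, ← Finset.sum_add_distrib]
      refine Finset.sum_congr rfl fun i _ => ?_
      simp only [Pi.add_apply]; ring
    rw [this]
    have := le_abs_self (∑ i, a i * b i)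
    linarith
  exact (abs_le_of_sq_le_sq' h2 (add_nonneg (eno_nonneg a) (eno_nonneg b))).2

lemma eno_neg (a : V3) : eno (-a) = eno a := by
  unfold eno esq; simp

lemma eno_sub_comm (a b : V3) : eno (a - b) = eno (b - a) := by
  rw [← eno_neg, neg_sub]

lemma eno_sub_le (a b c : V3) : eno (a - c) ≤ eno (a - b) + eno (b - c) := by
  have : a - c = (a - b) + (b - c) := by abel
  rw [this]; exact eno_add_le _ _

/-- `φ` with `|Dφ| ≤ 1` is 1-Lipschitz. -/
lemma abs_sub_le_eno {f : V3 → ℝ} (hf : Differentiable ℝ f) (hg : ∀ x, SM.gs f x ≤ 1) (x y : V3) :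
    |f y - f x| ≤ eno (y - x) := by
  have hd := fun t => hasDerivAt_seg hf x (y - x) t
  have hb : ∀ t ∈ Set.Icc (0:ℝ) 1, ‖∑ i, (y - x) i * pd i f (x + t • (y - x))‖ ≤ eno (y - x) := by
    intro t _
    rw [Real.norm_eq_abs]
    refine (abs_dir_le f _ _).trans ?_
    have : Real.sqrt (SM.gs f (x + t • (y - x))) ≤ 1 := Real.sqrt_le_one.2 (hg _)
    exact mul_le_of_le_one_right (eno_nonneg _) this
  have h := (convex_Icc (0:ℝ) 1).norm_image_sub_le_of_norm_hasDerivWithin_le
    (f := fun s : ℝ => f (x + s • (y - x))) (fun t _ => (hd t).hasDerivWithinAt) hb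
    (left_mem_Icc.2 zero_le_one) (right_mem_Icc.2 zero_le_one)
  simpa using h

end Vale.Agent.P134.R3
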