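import Vale.Agent.P134.SM.Ident

set_option linter.all false

/-!
# P134 / R3 : interface of the package stable in ℝ³ implies one-dimensional

Exact statements of the two big inputs of the final assembly (`SLABLI`, coordinator helper134,
and `FIALA`, coordinator helper458) and of the Harnack input `HARN` (helper283 / helper147).
The assembly (helper876) proves: `SLABLI 𝒰 → FIALA → HARN → ∀ u ∈ 𝒰, one-dimensional`.
-/

namespace Vale.Agent.P134.R3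

open Vale.Agent.P134 MeasureTheory Set
open scoped ENNReal

abbrev V3 := Fin 3 → ℝ

/-- `φ = √2 artanh u` -/
noncomputable def ph (u : V3 → ℝ) (x : V3) : ℝ :=
  Real.sqrt 2 / 2 * (Real.log (1 + u x) - Real.log (1 - u x))

/-- `q = 1 - |Dφ|²` -/
noncomputable def qq (u : V3 → ℝ) (x : V3) : ℝ := 1 - SM.gs (ph u) x

/-- gradient as a vector -/
noncomputable def gr (φ : V3 → ℝ) (x : V3) : V3 := fun i => pd i φ x

/-- `D²φ Dφ` as a vector -/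
noncomputable def hg (φ : V3 → ℝ) (x : V3) : V3 := fun i => ∑ j, pd i (pd j φ) x * pd j φ x

/-- trapezoidal weight of the level: `1` on `[-1,1]`, `0` off `(-2,2)` -/
noncomputable def wt3 (s : ℝ) : ℝ := max 0 (min 1 (2 - |s|))

/-- exponential weight in space -/
noncomputable def GG (l : ℝ) (x : V3) : ℝ := Real.exp (-(l * Real.sqrt (1 + esq x)))

/-- a set of lattice points -/
def Lat (B : Set V3) : Prop := ∀ b ∈ B, ∀ i, ∃ k : ℤ, b i = k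

/-- points at distance at least `L` from `B` -/
def far (B : Set V3) (L : ℝ) : Set V3 := {x | ∀ b ∈ B, L ≤ eno (x - b)}

/-- **(SLABLI)** localised stability in slab form, with bad cells. -/
def SLABLI (𝒰 : Set (V3 → ℝ)) : Prop :=
  ∀ ε : ℝ, 0 < ε → ∃ δ0 c2 c3 : ℝ, 0 < δ0 ∧ 0 < c2 ∧ 0 < c3 ∧
  ∀ c1 : ℝ, 0 < c1 → ∃ W0 : ℝ, ∀ W κ : ℝ, W0 ≤ W → 0 < κ → ∃ l0 : ℝ, 0 < l0 ∧
  ∀ l : ℝ, 0 < l → l ≤ l0 → ∀ u ∈ 𝒰, ∀ B : Set V3, Lat B →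
    (∀ x, |ph u x| ≤ 4 → x ∈ far B (W / 4) → qq u x ≤ δ0) →
    (∀ b ∈ B, c1 ≤ ∫ x in {x | eno (x - b) ≤ 4}, psi u x ^ 3 * qq u x) →
    ∀ η : V3 → ℝ, ContDiff ℝ 1 η → (∀ x, 0 ≤ η x) → (∀ x, η x ≤ GG l x) →
      (∀ x, (∃ b ∈ B, eno (x - b) ≤ 4 * W) → η x = GG l x) →
      (∃ M, ∀ x, SM.gs η x ≤ M * GG l x ^ 2) →
      c3 * c1 * (∑' b : B, GG l b ^ 2) +
        ∫ x in far B (2 * W), wt3 (ph u x) * Real.sqrt (SM.gs (ph u) x) *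
          (SM.hs (ph u) x / 2 + c2 * qq u x) * η x ^ 2
      ≤ (1 + ε) * ∫ x, wt3 (ph u x) * Real.sqrt (SM.gs (ph u) x) * SM.gs η x +
        κ * ∫ x, wt3 (ph u x) * Real.sqrt (SM.gs (ph u) x) * η x ^ 2

/-- a chain in the slab `|φ| ≤ 3` with steps `≤ r0`, starting within `2 L` of `B` -/
def IsCh (φ : V3 → ℝ) (r0 L : ℝ) (B : Set V3) (m : ℕ) (p : ℕ → V3) : Prop :=
  (∃ b ∈ B, eno (p 0 - b) ≤ 2 * L) ∧ (∀ k, k ≤ m → |φ (p k)| ≤ 3) ∧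
    ∀ k, k < m → eno (p (k + 1) - p k) ≤ r0

/-- chain distance from the sources -/
noncomputable def rch (φ : V3 → ℝ) (r0 L : ℝ) (B : Set V3) (x : V3) : ℝ≥0∞ :=
  ⨅ (m : ℕ) (p : ℕ → V3) (_ : IsCh φ r0 L B m p ∧ p m = x),
    ENNReal.ofReal (∑ k ∈ Finset.range m, eno (p (k + 1) - p k))

/-- `h ((1+e) ρ + C)`, and `0` if `ρ = ∞` -/
noncomputable def hv (h : ℝ → ℝ) (e C : ℝ) (ρ : ℝ≥0∞) : ℝ :=
  if ρ = ⊤ then 0 else h ((1 + e) * ρ.toReal + C)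

/-- `Φ(t) = ∫_t^R (r - t) h(r) dr` -/
noncomputable def Ph (h : ℝ → ℝ) (R t : ℝ) : ℝ := ∫ r in t..R, (r - t) * h r

/-- `Φ(((1-e) ρ - C)₊)` (and `0` if this number is `≥ R` or `ρ = ∞`) -/
noncomputable def Pv (h : ℝ → ℝ) (R e C : ℝ) (ρ : ℝ≥0∞) : ℝ :=
  if ρ = ⊤ then 0 else
    if max 0 ((1 - e) * ρ.toReal - C) ≤ R then Ph h R (max 0 ((1 - e) * ρ.toReal - C)) else 0

/-- `|Dφ|`-directions are almost constant on balls of radius `L1` around core points off `B` -/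
def Good (φ : V3 → ℝ) (B : Set V3) (e0 L1 L : ℝ) : Prop :=
  ∀ x, |φ x| ≤ 4 → x ∈ far B L → ∃ n : V3, esq n = 1 ∧ ∀ y, eno (y - x) ≤ L1 →
    eno (gr φ y - n) ≤ e0

/-- **(FIALA)** the weighted Fiala inequality for the slab `|φ| < 2` (final result of the
polyhedral part). `h = F'²` is only assumed non-increasing (jumps allowed). -/
def FIALA : Prop :=
  ∀ e : ℝ, 0 < e → e < 1 → ∃ e0 r0 L1 : ℝ, 0 < e0 ∧ 0 < r0 ∧ 1 ≤ L1 ∧
  ∀ L : ℝ, L1 ≤ L → ∃ C : ℝ, 1 ≤ C ∧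
  ∀ φ : V3 → ℝ, ContDiff ℝ 2 φ → (∀ x, SM.gs φ x ≤ 1) → ∀ B : Set V3, Lat B →
    Good φ B e0 L1 L →
    ∀ (h : ℝ → ℝ) (R l : ℝ), 1 ≤ R → (∀ s t, 0 ≤ s → s ≤ t → h t ≤ h s) → (∀ t, 0 ≤ h t) →
      (∀ t, R ≤ t → h t = 0) → 0 < l → C * l * (R + C) ≤ 1 →
      ∫ x, wt3 (φ x) * Real.sqrt (SM.gs φ x) * hv h e C (rch φ r0 L B x) * GG l x ^ 2
      ≤ C * Ph h R 0 * (∑' b : B, GG l b ^ 2) +
        ∫ x in far B L,
          ((1 + e) * wt3 (φ x) * (7 / 2 * SM.hs φ x) +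
            (if |φ x| ≤ 3 then e * SM.hs φ x + C * SM.lap φ x ^ 2 + C * esq (hg φ x) else 0)) *
          Pv h R e C (rch φ r0 L B x) * GG l x ^ 2

/-- **(HARN)** Harnack inequalities for the discrepancy in slabs (all dimensions; here `3`). -/
def HARN : Prop :=
  ∀ S : ℝ, ∃ C : ℝ, 0 < C ∧ ∀ u : V3 → ℝ, Sol u → (∀ x, |u x| < 1) → ∀ x, |ph u x| ≤ S →
    SM.hs (ph u) x ≤ C * qq u x ∧ SM.gs (qq u) x ≤ (C * qq u x) ^ 2

end Vale.Agent.P134.R3
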