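import Vale.Agent.P134.ASM.Defs
import Vale.Agent.P134.H586.Chi
import Vale.Agent.P134.H586.Gw

set_option linter.all false

/-! P134, package R3: the final combination (no bad cells). -/

namespace Vale.Agent.P134.R3K

open Vale.Agent.P134 Vale.Agent.P134.SM Vale.Agent.P134.LI Vale.Agent.P134.ASM
open MeasureTheory Filter Topology

open Classical in
/-- indicator of `d < R`. -/
noncomputable def iN (B : Set R3) (R : ℝ) (x : R3) : ℝ := if Far B R x then 0 else 1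

lemma iN_nonneg (B : Set R3) (R : ℝ) (x : R3) : 0 ≤ iN B R x := by unfold iN; split_ifs <;> norm_num
lemma iN_le_one (B : Set R3) (R : ℝ) (x : R3) : iN B R x ≤ 1 := by unfold iN; split_ifs <;> norm_num
lemma iF_nonneg (B : Set R3) (R : ℝ) (x : R3) : 0 ≤ iF B R x := by unfold iF; split_ifs <;> norm_num
lemma iF_le_one (B : Set R3) (R : ℝ) (x : R3) : iF B R x ≤ 1 := by unfold iF; split_ifs <;> norm_num
lemma iF_add_iN (B : Set R3) (R : ℝ) (x : R3) : iF B R x + iN B R x = 1 := by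
  unfold iF iN; split_ifs <;> norm_num
lemma iF_of {B : Set R3} {R : ℝ} {x : R3} (h : Far B R x) : iF B R x = 1 := by
  unfold iF; rw [if_pos h]
lemma iF_not {B : Set R3} {R : ℝ} {x : R3} (h : ¬ Far B R x) : iF B R x = 0 := by
  unfold iF; rw [if_neg h]
lemma iN_of {B : Set R3} {R : ℝ} {x : R3} (h : ¬ Far B R x) : iN B R x = 1 := by
  unfold iN; rw [if_neg h]

lemma iF_meas (B : Set R3) (R : ℝ) : Measurable (iF B R) := by
  classical
  have : iF B R = fun x => if x ∈ {x | Far B R x} then (1:ℝ) else 0 := by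
    funext x; unfold iF; simp only [Set.mem_setOf_eq]
  rw [this]
  exact Measurable.ite (H586.measurableSet_Far B R) measurable_const measurable_const

lemma iN_meas (B : Set R3) (R : ℝ) : Measurable (iN B R) := by
  have : iN B R = fun x => 1 - iF B R x := by
    funext x; have := iF_add_iN B R x; linarith
  rw [this]
  exact measurable_const.sub (iF_meas B R)

noncomputable def vol (B : Set R3) (lam R : ℝ) : ℝ := ∫ x, iN B R x * Gw lam x ^ 2

/-! ### level weights -/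

lemma wS_nonneg (s t : ℝ) : 0 ≤ wS s t := le_max_left _ _
lemma wS_le_one (s t : ℝ) : wS s t ≤ 1 := max_le (by norm_num) (min_le_left _ _)
lemma wS_cont (s : ℝ) : Continuous (wS s) := by unfold wS; fun_prop
lemma wS_one {s t : ℝ} (h : |t| ≤ s - 1) : wS s t = 1 := by
  unfold wS
  rw [min_eq_left (by linarith), max_eq_right (by norm_num)]
lemma wS_zero {s t : ℝ} (h : s ≤ |t|) : wS s t = 0 := by
  unfold wS
  apply max_eq_left
  exact (min_le_right _ _).trans (by linarith)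
lemma lt_of_wS {s t : ℝ} (h : wS s t ≠ 0) : |t| < s := by
  by_contra hc
  exact h (wS_zero (not_lt.mp hc))

lemma wS_integrable (s : ℝ) : Integrable (wS s) := by
  apply (wS_cont s).integrable_of_hasCompactSupport
  apply HasCompactSupport.of_support_subset_isCompact (isCompact_Icc (a := -s) (b := s))
  intro t ht
  have := lt_of_wS ht
  rw [abs_lt] at this
  exact ⟨this.1.le, this.2.le⟩

lemma one_le_int_wS {s : ℝ} (hs : 2 ≤ s) : 1 ≤ ∫ t, wS s t := by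
  have h1 : ∫ t, Set.indicator (Set.Icc (-1:ℝ) 1) (fun _ => (1:ℝ)) t = 2 := by
    rw [integral_indicator measurableSet_Icc]
    simp
    norm_num
  have h2 : ∫ t, Set.indicator (Set.Icc (-1:ℝ) 1) (fun _ => (1:ℝ)) t ≤ ∫ t, wS s t := by
    apply integral_mono_of_nonneg
    · exact Eventually.of_forall fun t => Set.indicator_nonneg (fun _ _ => by norm_num) _
    · exact wS_integrable s
    · refine Eventually.of_forall fun t => ?_
      by_cases ht : t ∈ Set.Icc (-1:ℝ) 1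
      · rw [Set.indicator_of_mem ht, wS_one]
        rw [abs_le]; constructor <;> linarith [ht.1, ht.2]
      · rw [Set.indicator_of_notMem ht]; exact wS_nonneg _ _
  linarith


/-! ### gradients of products -/

lemma sqrt_sum_add_le {n : ℕ} (a b : Fin n → ℝ) {α β : ℝ} (hα : 0 ≤ α) (hβ : 0 ≤ β)
    (h1 : ∑ i, a i ^ 2 ≤ α ^ 2) (h2 : ∑ i, b i ^ 2 ≤ β ^ 2) :
    ∑ i, (a i + b i) ^ 2 ≤ (α + β) ^ 2 := by
  have h3 : (∑ i, a i * b i) ^ 2 ≤ (∑ i, a i ^ 2) * ∑ i, b i ^ 2 :=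
    Finset.sum_mul_sq_le_sq_mul_sq _ _ _
  have h4 : (∑ i, a i * b i) ^ 2 ≤ (α * β) ^ 2 := by
    refine h3.trans ?_
    rw [mul_pow]
    exact mul_le_mul h1 h2 (Finset.sum_nonneg fun i _ => sq_nonneg _) (sq_nonneg _)
  have h5 : ∑ i, a i * b i ≤ α * β := (le_abs_self _).trans (abs_le_of_sq_le_sq h4 (mul_nonneg hα hβ))
  have h6 : ∑ i, (a i + b i) ^ 2 = ∑ i, a i ^ 2 + 2 * ∑ i, a i * b i + ∑ i, b i ^ 2 := by
    rw [Finset.mul_sum, ← Finset.sum_add_distrib, ← Finset.sum_add_distrib]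
    exact Finset.sum_congr rfl fun i _ => by ring
  rw [h6]
  nlinarith

lemma sum_add_sq_le {n : ℕ} (a b : Fin n → ℝ) {e : ℝ} (he : 0 < e) :
    ∑ i, (a i + b i) ^ 2 ≤ (1 + e) * ∑ i, a i ^ 2 + (1 + 1 / e) * ∑ i, b i ^ 2 := by
  rw [Finset.mul_sum, Finset.mul_sum, ← Finset.sum_add_distrib]
  apply Finset.sum_le_sum
  intro i _
  have h : (1 + e) * a i ^ 2 + (1 + 1 / e) * b i ^ 2 - (a i + b i) ^ 2
      = (e * a i - b i) ^ 2 / e := by field_simp; ring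
  have h2 : 0 ≤ (e * a i - b i) ^ 2 / e := by positivity
  linarith

variable {p rs ch : R3 → ℝ} {B : Set R3} {h P : ℝ → ℝ} {s1 L0 e C ε R1 T lam δ CH K Kr C0 W c2 : ℝ}

/-- the test function of the level comparison. -/
noncomputable def gF (h : ℝ → ℝ) (rs : R3 → ℝ) (e C lam : ℝ) (x : R3) : ℝ :=
  Gw lam x ^ 2 * h ((1 + e) * (rs x + 1) + C)

/-- the test function of the stability inequality. -/
noncomputable def eF (P : ℝ → ℝ) (rs : R3 → ℝ) (lam : ℝ) (x : R3) : ℝ := Gw lam x * P (rs x)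

lemma Gw_diff (lam : ℝ) : Differentiable ℝ (Gw lam) :=
  (H586.Gw_cd lam (k := 1)).differentiable (by norm_num)

lemma eF_cd (hr : ContDiff ℝ 1 rs) (hP : ContDiff ℝ 1 P) : ContDiff ℝ 1 (eF P rs lam) :=
  (H586.Gw_cd lam).mul (hP.comp hr)

lemma gF_cd (hr : ContDiff ℝ 1 rs) (hh : ContDiff ℝ 1 h) : ContDiff ℝ 1 (gF h rs e C lam) := by
  apply ((H586.Gw_cd lam).pow 2).mul
  apply hh.comp
  exact (contDiff_const.mul (hr.add contDiff_const)).add contDiff_const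

lemma pd_eF (hr : ContDiff ℝ 1 rs) (hP : ContDiff ℝ 1 P) (i : Fin 3) (x : R3) :
    pd i (eF P rs lam) x = Gw lam x * (deriv P (rs x) * pd i rs x) + P (rs x) * pd i (Gw lam) x := by
  have d1 : Differentiable ℝ rs := hr.differentiable (by norm_num)
  have d2 : Differentiable ℝ P := hP.differentiable (by norm_num)
  have d3 : DifferentiableAt ℝ (fun y => P (rs y)) x := (d2 _).comp x (d1 x)
  have e1 : eF P rs lam = fun y => Gw lam y * P (rs y) := rfl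
  rw [e1, pd_mul (Gw_diff lam x) d3, pd_comp (d2 _) (d1 x)]

lemma gs_eF_le (hr : ContDiff ℝ 1 rs) (hP : ContDiff ℝ 1 P) (he : 0 < e) (x : R3) :
    gs (eF P rs lam) x ≤ (1 + e) * (Gw lam x ^ 2 * deriv P (rs x) ^ 2 * gs rs x)
      + (1 + 1 / e) * (P (rs x) ^ 2 * (lam ^ 2 * Gw lam x ^ 2)) := by
  have h1 := sum_add_sq_le (fun i => Gw lam x * (deriv P (rs x) * pd i rs x))
    (fun i => P (rs x) * pd i (Gw lam) x) he
  have h2 : gs (eF P rs lam) x = ∑ i, (Gw lam x * (deriv P (rs x) * pd i rs x)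
      + P (rs x) * pd i (Gw lam) x) ^ 2 := by
    unfold gs
    exact Finset.sum_congr rfl fun i _ => by rw [pd_eF hr hP]
  have h3 : ∑ i, (Gw lam x * (deriv P (rs x) * pd i rs x)) ^ 2
      = Gw lam x ^ 2 * deriv P (rs x) ^ 2 * gs rs x := by
    unfold gs
    rw [Finset.mul_sum]
    exact Finset.sum_congr rfl fun i _ => by ring
  have h4 : ∑ i, (P (rs x) * pd i (Gw lam) x) ^ 2 = P (rs x) ^ 2 * gs (Gw lam) x := by
    unfold gs
    rw [Finset.mul_sum]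
    exact Finset.sum_congr rfl fun i _ => by ring
  rw [h2]
  refine h1.trans ?_
  rw [h3, h4]
  have h5 := H586.gs_Gw_le lam x
  have h6 : 0 ≤ 1 + 1 / e := by positivity
  gcongr

lemma pd_gF (hr : ContDiff ℝ 1 rs) (hh : ContDiff ℝ 1 h) (i : Fin 3) (x : R3) :
    pd i (gF h rs e C lam) x
      = Gw lam x ^ 2 * (deriv h ((1 + e) * (rs x + 1) + C) * ((1 + e) * pd i rs x))
        + h ((1 + e) * (rs x + 1) + C) * (2 * Gw lam x * pd i (Gw lam) x) := by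
  have d1 : Differentiable ℝ rs := hr.differentiable (by norm_num)
  have d2 : Differentiable ℝ h := hh.differentiable (by norm_num)
  have d4 : DifferentiableAt ℝ (fun y => (1 + e) * (rs y + 1) + C) x := by
    exact (((d1 x).add_const _).const_mul _).add_const _
  have d3 : DifferentiableAt ℝ (fun y => h ((1 + e) * (rs y + 1) + C)) x :=
    (d2 _).comp x d4
  have d5 : DifferentiableAt ℝ (fun y => Gw lam y ^ 2) x := (Gw_diff lam x).pow 2
  have e1 : gF h rs e C lam = fun y => (fun z => Gw lam z ^ 2) y * h ((1 + e) * (rs y + 1) + C) := rfl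
  have e2 : pd i (fun y => (1 + e) * (rs y + 1) + C) x = (1 + e) * pd i rs x := by
    rw [pd_add (f := fun y => (1 + e) * (rs y + 1)) (g := fun _ => C)
      (((d1 x).add_const _).const_mul _) (by fun_prop), pd_const,
      pd_mul (f := fun _ => (1 + e)) (g := fun y => rs y + 1) (by fun_prop) ((d1 x).add_const _),
      pd_const, pd_add (g := fun _ => (1:ℝ)) (d1 x) (by fun_prop), pd_const]
    ring
  rw [e1, pd_mul (f := fun z => Gw lam z ^ 2) d5 d3,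
    pd_comp (h := h) (f := fun y => (1 + e) * (rs y + 1) + C) (d2 _) d4, e2, pd_sq (Gw_diff lam x)]

lemma wn_gF_le (hr : ContDiff ℝ 1 rs) (hh : ContDiff ℝ 1 h) (h0 : ∀ t, 0 ≤ h t) (he : 0 < e)
    (hl : 0 < lam) {k : ℝ} (hk : 0 ≤ k) (x : R3) (hrs : gs rs x ≤ k ^ 2) :
    wn (gF h rs e C lam) x
      ≤ Gw lam x ^ 2 * (|deriv h ((1 + e) * (rs x + 1) + C)| * ((1 + e) * k))
        + 2 * lam * gF h rs e C lam x := by
  have hG := H586.Gw_pos lam x
  have hH := h0 ((1 + e) * (rs x + 1) + C)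
  set d := deriv h ((1 + e) * (rs x + 1) + C) with hd
  have h1 : ∑ i, (Gw lam x ^ 2 * (d * ((1 + e) * pd i rs x))) ^ 2
      ≤ (Gw lam x ^ 2 * (|d| * ((1 + e) * k))) ^ 2 := by
    have e1 : ∑ i, (Gw lam x ^ 2 * (d * ((1 + e) * pd i rs x))) ^ 2
        = (Gw lam x ^ 2 * (|d| * (1 + e))) ^ 2 * gs rs x := by
      unfold gs
      rw [Finset.mul_sum]
      refine Finset.sum_congr rfl fun i _ => ?_
      have : |d| ^ 2 = d ^ 2 := sq_abs d
      calc (Gw lam x ^ 2 * (d * ((1 + e) * pd i rs x))) ^ 2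
          = (Gw lam x ^ 2 * (1 + e)) ^ 2 * d ^ 2 * pd i rs x ^ 2 := by ring
        _ = (Gw lam x ^ 2 * (1 + e)) ^ 2 * |d| ^ 2 * pd i rs x ^ 2 := by rw [this]
        _ = _ := by ring
    rw [e1]
    calc (Gw lam x ^ 2 * (|d| * (1 + e))) ^ 2 * gs rs x
        ≤ (Gw lam x ^ 2 * (|d| * (1 + e))) ^ 2 * k ^ 2 := by gcongr
      _ = _ := by ring
  have h2 : ∑ i, (h ((1 + e) * (rs x + 1) + C) * (2 * Gw lam x * pd i (Gw lam) x)) ^ 2
      ≤ (2 * lam * gF h rs e C lam x) ^ 2 := by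
    have e1 : ∑ i, (h ((1 + e) * (rs x + 1) + C) * (2 * Gw lam x * pd i (Gw lam) x)) ^ 2
        = (h ((1 + e) * (rs x + 1) + C) * (2 * Gw lam x)) ^ 2 * gs (Gw lam) x := by
      unfold gs
      rw [Finset.mul_sum]
      exact Finset.sum_congr rfl fun i _ => by ring
    rw [e1]
    calc (h ((1 + e) * (rs x + 1) + C) * (2 * Gw lam x)) ^ 2 * gs (Gw lam) x
        ≤ (h ((1 + e) * (rs x + 1) + C) * (2 * Gw lam x)) ^ 2 * (lam ^ 2 * Gw lam x ^ 2) := by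
          gcongr; exact H586.gs_Gw_le lam x
      _ = _ := by unfold gF; ring
  have hg0 : 0 ≤ gF h rs e C lam x := by unfold gF; positivity
  unfold wn
  apply Real.sqrt_le_iff.mpr
  constructor
  · positivity
  · have e3 : gs (gF h rs e C lam) x = ∑ i,
        (Gw lam x ^ 2 * (d * ((1 + e) * pd i rs x))
        + h ((1 + e) * (rs x + 1) + C) * (2 * Gw lam x * pd i (Gw lam) x)) ^ 2 := by
      unfold gs
      exact Finset.sum_congr rfl fun i _ => by rw [pd_gF hr hh]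
    rw [e3]
    exact sqrt_sum_add_le _ _ (by positivity) (by positivity) h1 h2

/-! ### the pointwise facts -/

structure Ctx (p rs ch : R3 → ℝ) (B : Set R3) (h P : ℝ → ℝ)
    (s1 L0 e C ε R1 T lam δ CH K Kr : ℝ) : Prop where
  pc : ContDiff ℝ 2 p
  q0 : ∀ x, gs p x ≤ 1
  lapb : ∀ x, |lap p x| ≤ 2 * (1 - gs p x)
  hgb : ∀ x, ∑ i, (∑ j, pd i (pd j p) x * pd j p x) ^ 2 ≤ CH * (1 - gs p x) ^ 2
  hsK : ∀ x, hs p x ≤ K
  qs : ∀ x, |p x| ≤ s1 + 9 → Far B L0 x → 1 - gs p x ≤ δ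
  chm : Measurable ch
  ch0 : ∀ x, 0 ≤ ch x
  chF : ∀ x R, R ≤ T → ch x < R → ¬ Far B (R + 2 * L0) x
  rc : ContDiff ℝ 1 rs
  rs0 : ∀ x, 0 ≤ rs x
  rsK : ∀ x, gs rs x ≤ Kr ^ 2
  rsl : ∀ x, |p x| ≤ s1 + 9 → gs rs x ≤ 1
  rsc : ∀ x, |p x| ≤ s1 + 9 → |rs x - ch x| ≤ 1
  hc : ContDiff ℝ 1 h
  h0 : ∀ t, 0 ≤ h t
  ha : AntitoneOn h (Set.Ici 0)
  hz : ∀ t, R1 ≤ t → h t = 0
  hd : ∀ t, 0 ≤ t → |deriv h t| ≤ ε * h t + ε / R1 ^ 3
  Pc : ContDiff ℝ 1 P
  P0 : ∀ t, 0 ≤ P t ∧ P t ≤ 1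
  Pz : ∀ t, 4 * R1 ≤ t → P t = 0
  Pd : ∀ t, |deriv P t| ≤ ε
  Pd2 : ∀ t, 0 ≤ t → deriv P t ^ 2 ≤ (1 + 10 * e + ε) * h ((1 + e) * (t + 1) + C) + ε / R1 ^ 3
  hP : ∀ t, 0 ≤ t → h ((1 + e) * (t + 1) + C) ≤ ε * P t ^ 2
  PhP : ∀ t t', 0 ≤ t → t - 1 ≤ t' →
    Ph h R1 (max 0 ((1 - e) * t' - C)) ≤ 135 / 1000 * P t ^ 2
  e0 : 0 < e
  e1 : e ≤ 1 / 1000
  C1 : 1 ≤ C
  ε0 : 0 < ε
  R11 : 1 ≤ R1
  T1 : 4 * R1 + 2 ≤ T
  l0 : 0 < lam
  L01 : 1 ≤ L0
  s11 : 2 ≤ s1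
  CH0 : 0 ≤ CH
  K0 : 0 ≤ K
  Kr0 : 0 ≤ Kr
  GI : Integrable (fun x : R3 => Gw lam x ^ 2)

lemma ig (GI : Integrable (fun x : R3 => Gw lam x ^ 2)) {f : R3 → ℝ} (hf : Measurable f) (k : ℝ)
    (hb : ∀ x, |f x| ≤ k * Gw lam x ^ 2) : Integrable f :=
  (GI.const_mul k).mono' hf.aestronglyMeasurable
    (ae_of_all _ fun x => by rw [Real.norm_eq_abs]; exact hb x)

lemma int3 {f1 f2 f3 : R3 → ℝ} (i1 : Integrable f1) (i2 : Integrable f2) (i3 : Integrable f3)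
    {k k3 : ℝ} : ∫ x, (2 * f2 x + k * (f1 x + f2 x) + k3 * f3 x)
      = 2 * (∫ x, f2 x) + k * ((∫ x, f1 x) + ∫ x, f2 x) + k3 * ∫ x, f3 x := by
  have j1 : Integrable (fun x => f1 x + f2 x) := i1.add i2
  have j2 : Integrable (fun x => 2 * f2 x + k * (f1 x + f2 x)) :=
    (i2.const_mul _).add (j1.const_mul _)
  rw [integral_add j2 (i3.const_mul _), integral_add (i2.const_mul _) (j1.const_mul _),
    integral_const_mul, integral_const_mul, integral_const_mul, integral_add i1 i2]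

namespace Ctx

variable (c : Ctx p rs ch B h P s1 L0 e C ε R1 T lam δ CH K Kr)
include c

lemma gsc : Continuous (gs p) := (gs_contDiff (m := 0) (f := p) (c.pc.of_le (by norm_num))).continuous

lemma wnc : Continuous (wn p) := c.gsc.sqrt

lemma hsc : Continuous (hs p) := by
  unfold hs
  exact continuous_finset_sum _ fun i _ => continuous_finset_sum _ fun j _ =>
    (continuous_pd (contDiff_pd_one c.pc)).pow 2

lemma lapc : Continuous (lap p) := by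
  unfold lap
  exact continuous_finset_sum _ fun i _ => continuous_pd (contDiff_pd_one c.pc)

lemma Wc (a : ℝ) : Continuous (fun x => wS a (p x)) := (wS_cont a).comp c.pc.continuous

lemma gFc : Continuous (gF h rs e C lam) := (gF_cd c.rc c.hc).continuous

lemma eFc : Continuous (eF P rs lam) := (eF_cd c.rc c.Pc).continuous

lemma gF0 (x : R3) : 0 ≤ gF h rs e C lam x := mul_nonneg (sq_nonneg _) (c.h0 _)

lemma hle (t : ℝ) (ht : 0 ≤ t) : h t ≤ h 0 := c.ha (by simp) ht ht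

lemma arg0 (x : R3) : 0 ≤ (1 + e) * (rs x + 1) + C := by
  have := c.rs0 x; have := c.e0; have := c.C1; positivity

lemma gFb (x : R3) : gF h rs e C lam x ≤ h 0 * Gw lam x ^ 2 := by
  unfold gF
  rw [mul_comm]
  exact mul_le_mul_of_nonneg_right (c.hle _ (c.arg0 x)) (sq_nonneg _)

lemma eF0 (x : R3) : 0 ≤ eF P rs lam x := mul_nonneg (H586.Gw_pos lam x).le (c.P0 _).1

lemma eFb (x : R3) : eF P rs lam x ≤ Gw lam x := by
  unfold eF
  exact mul_le_of_le_one_right (H586.Gw_pos lam x).le (c.P0 _).2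

lemma eFb2 (x : R3) : eF P rs lam x ^ 2 ≤ Gw lam x ^ 2 := pow_le_pow_left₀ (c.eF0 x) (c.eFb x) 2

lemma wn1 (x : R3) : wn p x ≤ 1 := by
  exact Real.sqrt_le_one.mpr (c.q0 x)

lemma gs_le_wn (x : R3) : gs p x ≤ wn p x := by
  rw [← wn_sq]
  have h1 := c.wn1 x
  have h2 := wn_nonneg p x
  nlinarith

lemma iW (a : ℝ) {f : R3 → ℝ} (hf : Measurable f) (k : ℝ) (h0 : ∀ x, 0 ≤ f x)
    (hk : ∀ x, f x ≤ k * Gw lam x ^ 2) : Integrable (fun x => wS a (p x) * f x) := by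
  have hW := (c.Wc a).measurable
  apply ig c.GI (hW.mul hf) k
  intro x
  have h5 := wS_nonneg a (p x)
  have h6 := wS_le_one a (p x)
  have h7 := h0 x
  have h8 : 0 ≤ wS a (p x) * f x := mul_nonneg h5 h7
  show |wS a (p x) * f x| ≤ _
  rw [abs_of_nonneg h8]
  calc wS a (p x) * f x ≤ 1 * f x := by gcongr
    _ ≤ _ := by rw [one_mul]; exact hk x

lemma one_sub_nonneg (x : R3) : 0 ≤ 1 - gs p x := by linarith [c.q0 x]

lemma h00 : 0 ≤ h 0 := c.h0 0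

lemma iWg (a : ℝ) {f : R3 → ℝ} (hf : Continuous f) (h0 : ∀ x, 0 ≤ f x) (h1 : ∀ x, f x ≤ 1) :
    Integrable (fun x => wS a (p x) * (f x * gF h rs e C lam x)) := by
  have hg := c.gFc
  apply c.iW a (by fun_prop) (h 0)
  · intro x; exact mul_nonneg (h0 x) (c.gF0 x)
  · intro x
    calc f x * gF h rs e C lam x ≤ 1 * gF h rs e C lam x :=
          mul_le_mul_of_nonneg_right (h1 x) (c.gF0 x)
      _ ≤ _ := by rw [one_mul]; exact c.gFb x

lemma iXG (a : ℝ) : Integrable (fun x => wS a (p x) * (gs p x * gF h rs e C lam x)) :=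
  c.iWg a c.gsc (gs_nonneg p) c.q0

lemma iX (a : ℝ) : Integrable (fun x => wS a (p x) * (wn p x * gF h rs e C lam x)) :=
  c.iWg a c.wnc (wn_nonneg p) c.wn1

lemma iQg (a : ℝ) : Integrable (fun x => wS a (p x) * ((1 - gs p x) * gF h rs e C lam x)) :=
  c.iWg a (continuous_const.sub c.gsc) c.one_sub_nonneg (fun x => by linarith [gs_nonneg p x])

/-- `∫ W rr g ≤ ∫ W |Dp|² g + ∫ W q g`. -/
lemma X_le : ∫ x, wS (s1 + 9) (p x) * (wn p x * gF h rs e C lam x)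
    ≤ (∫ x, wS (s1 + 9) (p x) * (gs p x * gF h rs e C lam x))
      + ∫ x, wS (s1 + 9) (p x) * ((1 - gs p x) * gF h rs e C lam x) := by
  rw [← integral_add (c.iXG _) (c.iQg _)]
  apply integral_mono (c.iX _) ((c.iXG _).add (c.iQg _))
  intro x
  have h1 := c.gF0 x
  have h2 := c.wn1 x
  have h5 := wS_nonneg (s1 + 9) (p x)
  show wS (s1 + 9) (p x) * (wn p x * gF h rs e C lam x)
    ≤ wS (s1 + 9) (p x) * (gs p x * gF h rs e C lam x)
      + wS (s1 + 9) (p x) * ((1 - gs p x) * gF h rs e C lam x)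
  have : wS (s1 + 9) (p x) * (gs p x * gF h rs e C lam x)
      + wS (s1 + 9) (p x) * ((1 - gs p x) * gF h rs e C lam x)
      = wS (s1 + 9) (p x) * (1 * gF h rs e C lam x) := by ring
  rw [this]
  gcongr

lemma vol_int (R : ℝ) : Integrable (fun x => iN B R x * Gw lam x ^ 2) := by
  have hG := H586.Gw_continuous lam
  apply ig c.GI (((iN_meas B R)).mul (by fun_prop)) 1
  intro x
  have h1 := iN_nonneg B R x
  have h2 := iN_le_one B R x
  have h3 : 0 ≤ iN B R x * Gw lam x ^ 2 := mul_nonneg h1 (sq_nonneg _)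
  show |iN B R x * Gw lam x ^ 2| ≤ _
  rw [abs_of_nonneg h3]
  gcongr

lemma vol_nonneg (R : ℝ) : 0 ≤ vol B lam R :=
  integral_nonneg fun x => mul_nonneg (iN_nonneg B R x) (sq_nonneg _)

/-- in the slab, `rs < 4 R1` implies `d < 4 R1 + 2 + 2 L0`. -/
lemma iN_one {x : R3} (hx : |p x| ≤ s1 + 9) (hr : rs x < 4 * R1) :
    iN B (4 * R1 + 2 + 2 * L0) x = 1 := by
  apply iN_of
  apply c.chF x (4 * R1 + 2) c.T1
  have := (abs_le.mp (c.rsc x hx)).1
  linarith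

lemma deriv_P_zero {t : ℝ} (ht : 4 * R1 ≤ t) : deriv P t = 0 := by
  have hd : HasDerivAt P (deriv P t) t := (c.Pc.differentiable (by norm_num) t).hasDerivAt
  have h1 : HasDerivWithinAt P (deriv P t) (Set.Ici t) t := hd.hasDerivWithinAt
  have h2 : HasDerivWithinAt P 0 (Set.Ici t) t := by
    apply (hasDerivWithinAt_const t (Set.Ici t) (0:ℝ)).congr
    · intro y hy; exact c.Pz y (ht.trans hy)
    · exact c.Pz t ht
  exact (uniqueDiffWithinAt_Ici t).eq_deriv _ h1 h2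

lemma deriv_h_zero {t : ℝ} (ht : R1 ≤ t) : deriv h t = 0 := by
  have hd : HasDerivAt h (deriv h t) t := (c.hc.differentiable (by norm_num) t).hasDerivAt
  have h1 : HasDerivWithinAt h (deriv h t) (Set.Ici t) t := hd.hasDerivWithinAt
  have h2 : HasDerivWithinAt h 0 (Set.Ici t) t := by
    apply (hasDerivWithinAt_const t (Set.Ici t) (0:ℝ)).congr
    · intro y hy; exact c.hz y (ht.trans hy)
    · exact c.hz t ht
  exact (uniqueDiffWithinAt_Ici t).eq_deriv _ h1 h2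

/-- `∫ W rr η² ≤ vol`. -/
lemma K_le : ∫ x, wS (s1 + 9) (p x) * wn p x * eF P rs lam x ^ 2
    ≤ vol B lam (4 * R1 + 2 + 2 * L0) := by
  apply integral_mono_of_nonneg
  · refine Eventually.of_forall fun x => ?_
    exact mul_nonneg (mul_nonneg (wS_nonneg _ _) (wn_nonneg p x)) (sq_nonneg _)
  · exact c.vol_int _
  · refine Eventually.of_forall fun x => ?_
    show wS (s1 + 9) (p x) * wn p x * eF P rs lam x ^ 2
      ≤ iN B (4 * R1 + 2 + 2 * L0) x * Gw lam x ^ 2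
    by_cases hw : wS (s1 + 9) (p x) = 0
    · rw [hw, zero_mul, zero_mul]
      exact mul_nonneg (iN_nonneg _ _ _) (sq_nonneg _)
    have hx := (lt_of_wS hw).le
    by_cases hr : rs x < 4 * R1
    · rw [c.iN_one hx hr, one_mul]
      have h1 := wS_nonneg (s1 + 9) (p x)
      have h2 := wS_le_one (s1 + 9) (p x)
      have h3 := wn_nonneg p x
      have h4 := c.wn1 x
      have h5 := c.eFb2 x
      calc wS (s1 + 9) (p x) * wn p x * eF P rs lam x ^ 2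
          ≤ 1 * 1 * eF P rs lam x ^ 2 := by gcongr
        _ ≤ _ := by linarith
    · have : eF P rs lam x = 0 := by
        unfold eF; rw [c.Pz _ (not_lt.mp hr), mul_zero]
      rw [this]
      simp only [ne_eq, OfNat.ofNat_ne_zero, not_false_eq_true, zero_pow, mul_zero]
      exact mul_nonneg (iN_nonneg _ _ _) (sq_nonneg _)

/-- the Dirichlet term. -/
lemma T_le : ∫ x, wS (s1 + 9) (p x) * wn p x * gs (eF P rs lam) x
    ≤ (1 + e) * (1 + 10 * e + ε) * (∫ x, wS (s1 + 9) (p x) * (wn p x * gF h rs e C lam x))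
      + ((1 + e) * (ε / R1 ^ 3) + (1 + 1 / e) * lam ^ 2) * vol B lam (4 * R1 + 2 + 2 * L0) := by
  have he := c.e0
  have hε := c.ε0
  have hR := c.R11
  unfold vol
  rw [← integral_const_mul, ← integral_const_mul, ← integral_add ((c.iX _).const_mul _)
    ((c.vol_int _).const_mul _)]
  apply integral_mono_of_nonneg
  · refine Eventually.of_forall fun x => ?_
    exact mul_nonneg (mul_nonneg (wS_nonneg _ _) (wn_nonneg p x)) (gs_nonneg _ _)
  · exact ((c.iX _).const_mul _).add ((c.vol_int _).const_mul _)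
  · refine Eventually.of_forall fun x => ?_
    show wS (s1 + 9) (p x) * wn p x * gs (eF P rs lam) x
      ≤ (1 + e) * (1 + 10 * e + ε) * (wS (s1 + 9) (p x) * (wn p x * gF h rs e C lam x))
        + ((1 + e) * (ε / R1 ^ 3) + (1 + 1 / e) * lam ^ 2)
          * (iN B (4 * R1 + 2 + 2 * L0) x * Gw lam x ^ 2)
    have hg0 := c.gF0 x
    have hw0 := wn_nonneg p x
    have hW0 := wS_nonneg (s1 + 9) (p x)
    have hN0 := iN_nonneg B (4 * R1 + 2 + 2 * L0) x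
    by_cases hw : wS (s1 + 9) (p x) = 0
    · rw [hw]; simp only [zero_mul, mul_zero, zero_add]; positivity
    have hx := (lt_of_wS hw).le
    have hgs := gs_eF_le (lam := lam) c.rc c.Pc he x
    by_cases hr : rs x < 4 * R1
    · rw [c.iN_one hx hr, one_mul]
      have h1 := wS_le_one (s1 + 9) (p x)
      have h4 := c.wn1 x
      have h5 := c.rsl x hx
      have h6 := gs_nonneg rs x
      have h7 := c.Pd2 (rs x) (c.rs0 x)
      have hP0 := (c.P0 (rs x)).1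
      have hP1 := (c.P0 (rs x)).2
      have hP2 : P (rs x) ^ 2 ≤ 1 := by nlinarith
      have hG : 0 ≤ Gw lam x ^ 2 := sq_nonneg _
      have e1 : gs (eF P rs lam) x ≤ (1 + e) * (1 + 10 * e + ε) * gF h rs e C lam x
          + ((1 + e) * (ε / R1 ^ 3) + (1 + 1 / e) * lam ^ 2) * Gw lam x ^ 2 := by
        have a1 : Gw lam x ^ 2 * deriv P (rs x) ^ 2 * gs rs x
            ≤ Gw lam x ^ 2 * ((1 + 10 * e + ε) * h ((1 + e) * (rs x + 1) + C) + ε / R1 ^ 3) := by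
          calc Gw lam x ^ 2 * deriv P (rs x) ^ 2 * gs rs x
              ≤ Gw lam x ^ 2 * deriv P (rs x) ^ 2 * 1 := by gcongr
            _ ≤ _ := by rw [mul_one]; gcongr
        have a2 : P (rs x) ^ 2 * (lam ^ 2 * Gw lam x ^ 2) ≤ 1 * (lam ^ 2 * Gw lam x ^ 2) := by
          gcongr
        refine hgs.trans ?_
        calc (1 + e) * (Gw lam x ^ 2 * deriv P (rs x) ^ 2 * gs rs x)
            + (1 + 1 / e) * (P (rs x) ^ 2 * (lam ^ 2 * Gw lam x ^ 2))
            ≤ (1 + e) * (Gw lam x ^ 2 * ((1 + 10 * e + ε) * h ((1 + e) * (rs x + 1) + C)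
                + ε / R1 ^ 3)) + (1 + 1 / e) * (1 * (lam ^ 2 * Gw lam x ^ 2)) := by gcongr
          _ = _ := by unfold gF; ring
      calc wS (s1 + 9) (p x) * wn p x * gs (eF P rs lam) x
          ≤ wS (s1 + 9) (p x) * wn p x * ((1 + e) * (1 + 10 * e + ε) * gF h rs e C lam x
          + ((1 + e) * (ε / R1 ^ 3) + (1 + 1 / e) * lam ^ 2) * Gw lam x ^ 2) := by gcongr
        _ = (1 + e) * (1 + 10 * e + ε) * (wS (s1 + 9) (p x) * (wn p x * gF h rs e C lam x))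
          + (wS (s1 + 9) (p x) * wn p x) *
            (((1 + e) * (ε / R1 ^ 3) + (1 + 1 / e) * lam ^ 2) * Gw lam x ^ 2) := by ring
        _ ≤ (1 + e) * (1 + 10 * e + ε) * (wS (s1 + 9) (p x) * (wn p x * gF h rs e C lam x))
          + 1 * (((1 + e) * (ε / R1 ^ 3) + (1 + 1 / e) * lam ^ 2) * Gw lam x ^ 2) := by
            gcongr
            nlinarith
        _ = _ := by ring
    · have hP := c.Pz _ (not_lt.mp hr)
      have hdP := c.deriv_P_zero (not_lt.mp hr)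
      have : gs (eF P rs lam) x ≤ 0 := by
        refine hgs.trans (le_of_eq ?_)
        rw [hP, hdP]; ring
      have e2 : wS (s1 + 9) (p x) * wn p x * gs (eF P rs lam) x ≤ 0 :=
        mul_nonpos_of_nonneg_of_nonpos (mul_nonneg hW0 hw0) this
      refine e2.trans ?_
      positivity

lemma hasDh (t : ℝ) (ht : 0 ≤ t) : |deriv h t| ≤ ε * h t + ε / R1 ^ 3 := c.hd t ht

/-- pointwise bound of `|Dg|` in the slab. -/
lemma wn_g {x : R3} (hx : |p x| ≤ s1 + 9) :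
    wn (gF h rs e C lam) x ≤ (2 * lam + 2 * ε) * gF h rs e C lam x
      + 2 * (ε / R1 ^ 3) * (iN B (4 * R1 + 2 + 2 * L0) x * Gw lam x ^ 2) := by
  have he := c.e0
  have he1 := c.e1
  have hε := c.ε0
  have hR := c.R11
  have hl := c.l0
  have h1 := wn_gF_le (lam := lam) (e := e) (C := C) c.rc c.hc c.h0 he hl (k := 1) (by norm_num) x
    (by rw [one_pow]; exact c.rsl x hx)
  have hG : 0 ≤ Gw lam x ^ 2 := sq_nonneg _
  have hN0 := iN_nonneg B (4 * R1 + 2 + 2 * L0) x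
  have hg0 := c.gF0 x
  refine h1.trans ?_
  by_cases hr : rs x < 4 * R1
  · rw [c.iN_one hx hr, one_mul]
    have h2 := c.hd _ (c.arg0 x)
    have h3 : |deriv h ((1 + e) * (rs x + 1) + C)| * ((1 + e) * 1)
        ≤ (ε * h ((1 + e) * (rs x + 1) + C) + ε / R1 ^ 3) * 2 := by
      have h30 := c.h0 ((1 + e) * (rs x + 1) + C)
      apply mul_le_mul h2 (by linarith) (by linarith) (by positivity)
    calc Gw lam x ^ 2 * (|deriv h ((1 + e) * (rs x + 1) + C)| * ((1 + e) * 1))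
        + 2 * lam * gF h rs e C lam x
        ≤ Gw lam x ^ 2 * ((ε * h ((1 + e) * (rs x + 1) + C) + ε / R1 ^ 3) * 2)
          + 2 * lam * gF h rs e C lam x := by gcongr
      _ = _ := by unfold gF; ring
  · have hr' := not_lt.mp hr
    have h2 : deriv h ((1 + e) * (rs x + 1) + C) = 0 := by
      apply c.deriv_h_zero
      have := c.rs0 x
      have := c.C1
      nlinarith
    rw [h2, abs_zero, zero_mul, mul_zero, zero_add]
    have h4 : 0 ≤ 2 * ε * gF h rs e C lam x := by positivity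
    have h5 : 0 ≤ 2 * (ε / R1 ^ 3) * (iN B (4 * R1 + 2 + 2 * L0) x * Gw lam x ^ 2) := by positivity
    linarith

/-- global bound of `|Dg|`. -/
lemma wn_gK (x : R3) :
    wn (gF h rs e C lam) x ≤ ((ε * h 0 + ε) * (2 * Kr) + 2 * lam * h 0) * Gw lam x ^ 2 := by
  have he := c.e0
  have he1 := c.e1
  have hε := c.ε0
  have hR := c.R11
  have hl := c.l0
  have hK := c.Kr0
  have h1 := wn_gF_le (lam := lam) (e := e) (C := C) c.rc c.hc c.h0 he hl hK x (c.rsK x)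
  have hG : 0 ≤ Gw lam x ^ 2 := sq_nonneg _
  have h2 := c.hd _ (c.arg0 x)
  have h3 := c.hle _ (c.arg0 x)
  have h4 : ε / R1 ^ 3 ≤ ε := div_le_self hε.le (one_le_pow₀ hR)
  have h5 : |deriv h ((1 + e) * (rs x + 1) + C)| ≤ ε * h 0 + ε := by
    refine h2.trans ?_
    gcongr
  have h6 := c.h00
  refine h1.trans ?_
  calc Gw lam x ^ 2 * (|deriv h ((1 + e) * (rs x + 1) + C)| * ((1 + e) * Kr))
        + 2 * lam * gF h rs e C lam x
      ≤ Gw lam x ^ 2 * ((ε * h 0 + ε) * (2 * Kr)) + 2 * lam * (h 0 * Gw lam x ^ 2) := by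
        have := c.gFb x
        gcongr
        linarith
    _ = _ := by ring

/-- level comparison. -/
lemma XG_le (hL : StLEV) : (∫ x, wS (s1 + 9) (p x) * (gs p x * gF h rs e C lam x))
    ≤ (2 * (s1 + 9) - 1) / (2 * s1 - 1) * (∫ x, wS s1 (p x) * (gs p x * gF h rs e C lam x))
      + 10 * (2 * (∫ x, wS (s1 + 9) (p x) * ((1 - gs p x) * gF h rs e C lam x))
        + (2 * lam + 2 * ε) * ((∫ x, wS (s1 + 9) (p x) * (gs p x * gF h rs e C lam x))
          + ∫ x, wS (s1 + 9) (p x) * ((1 - gs p x) * gF h rs e C lam x))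
        + 2 * (ε / R1 ^ 3) * vol B lam (4 * R1 + 2 + 2 * L0)) := by
  have he := c.e0
  have hε := c.ε0
  have hR := c.R11
  have hl := c.l0
  have hK := c.Kr0
  have h00 := c.h00
  set K' := (ε * h 0 + ε) * (2 * Kr) + 2 * lam * h 0 with hK'
  have hK'0 : 0 ≤ K' := by positivity
  have h1 := hL p (gF h rs e C lam) s1 9 lam (h 0 + K' + 2) c.pc c.q0 c.s11 (by norm_num) hl
    (gF_cd c.rc c.hc) (fun x => ⟨c.gF0 x, (c.gFb x).trans (by
      have : 0 ≤ Gw lam x ^ 2 := sq_nonneg _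
      gcongr; linarith)⟩)
    (fun x => (c.wn_gK x).trans (by
      have : 0 ≤ Gw lam x ^ 2 := sq_nonneg _
      rw [← hK']
      exact mul_le_mul_of_nonneg_right (by linarith) this))
    (fun x _ => (c.lapb x).trans (by
      have := gs_nonneg p x
      linarith))
  refine h1.trans ?_
  have e10 : (9:ℝ) + 1 = 10 := by norm_num
  rw [e10]
  gcongr
  unfold vol
  have i1 := c.iXG (s1 + 9)
  have i2 := c.iQg (s1 + 9)
  have i3 := c.vol_int (4 * R1 + 2 + 2 * L0)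
  rw [← int3 i1 i2 i3]
  apply integral_mono_of_nonneg
  · refine Eventually.of_forall fun x => ?_
    exact mul_nonneg (wS_nonneg _ _) (add_nonneg (mul_nonneg (abs_nonneg _) (c.gF0 x)) (wn_nonneg _ _))
  · exact ((i2.const_mul _).add ((i1.add i2).const_mul _)).add (i3.const_mul _)
  · refine Eventually.of_forall fun x => ?_
    show wS (s1 + 9) (p x) * (|lap p x| * gF h rs e C lam x + wn (gF h rs e C lam) x)
      ≤ 2 * (wS (s1 + 9) (p x) * ((1 - gs p x) * gF h rs e C lam x))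
        + (2 * lam + 2 * ε) * (wS (s1 + 9) (p x) * (gs p x * gF h rs e C lam x)
          + wS (s1 + 9) (p x) * ((1 - gs p x) * gF h rs e C lam x))
        + 2 * (ε / R1 ^ 3) * (iN B (4 * R1 + 2 + 2 * L0) x * Gw lam x ^ 2)
    have hg0 := c.gF0 x
    have hW0 := wS_nonneg (s1 + 9) (p x)
    have hW1 := wS_le_one (s1 + 9) (p x)
    have hN0 := iN_nonneg B (4 * R1 + 2 + 2 * L0) x
    have hG : 0 ≤ Gw lam x ^ 2 := sq_nonneg _
    by_cases hw : wS (s1 + 9) (p x) = 0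
    · rw [hw]; simp only [zero_mul, mul_zero, zero_add]; positivity
    have hx := (lt_of_wS hw).le
    have h2 := c.wn_g hx
    have h3 := c.lapb x
    calc wS (s1 + 9) (p x) * (|lap p x| * gF h rs e C lam x + wn (gF h rs e C lam) x)
        ≤ wS (s1 + 9) (p x) * (2 * (1 - gs p x) * gF h rs e C lam x
          + ((2 * lam + 2 * ε) * gF h rs e C lam x
          + 2 * (ε / R1 ^ 3) * (iN B (4 * R1 + 2 + 2 * L0) x * Gw lam x ^ 2))) := by gcongr
      _ = 2 * (wS (s1 + 9) (p x) * ((1 - gs p x) * gF h rs e C lam x))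
        + (2 * lam + 2 * ε) * (wS (s1 + 9) (p x) * (gs p x * gF h rs e C lam x)
          + wS (s1 + 9) (p x) * ((1 - gs p x) * gF h rs e C lam x))
        + wS (s1 + 9) (p x) * (2 * (ε / R1 ^ 3) * (iN B (4 * R1 + 2 + 2 * L0) x * Gw lam x ^ 2)) := by
          ring
      _ ≤ 2 * (wS (s1 + 9) (p x) * ((1 - gs p x) * gF h rs e C lam x))
        + (2 * lam + 2 * ε) * (wS (s1 + 9) (p x) * (gs p x * gF h rs e C lam x)
          + wS (s1 + 9) (p x) * ((1 - gs p x) * gF h rs e C lam x))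
        + 1 * (2 * (ε / R1 ^ 3) * (iN B (4 * R1 + 2 + 2 * L0) x * Gw lam x ^ 2)) := by gcongr
      _ = _ := by ring

/-- integrability of the terms with `η²` and the far indicator. -/
lemma iAQ (R : ℝ) {f : R3 → ℝ} (hf : Continuous f) (k : ℝ) (h0 : ∀ x, 0 ≤ f x) (h1 : ∀ x, f x ≤ k) :
    Integrable (fun x => iF B R x * (wS (s1 + 9) (p x) * (eF P rs lam x ^ 2 * f x))) := by
  have he := c.eFc
  have hW := c.Wc (s1 + 9)
  apply ig c.GI ((iF_meas B R).mul (by fun_prop)) k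
  intro x
  have a1 := iF_nonneg B R x
  have a2 := iF_le_one B R x
  have a3 := wS_nonneg (s1 + 9) (p x)
  have a4 := wS_le_one (s1 + 9) (p x)
  have a5 := h0 x
  have a6 := h1 x
  have a7 := c.eFb2 x
  have a8 : 0 ≤ iF B R x * (wS (s1 + 9) (p x) * (eF P rs lam x ^ 2 * f x)) := by positivity
  show |iF B R x * (wS (s1 + 9) (p x) * (eF P rs lam x ^ 2 * f x))| ≤ _
  rw [abs_of_nonneg a8]
  calc iF B R x * (wS (s1 + 9) (p x) * (eF P rs lam x ^ 2 * f x))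
      ≤ 1 * (1 * (Gw lam x ^ 2 * k)) := by gcongr
    _ = _ := by ring

lemma iA (R : ℝ) : Integrable (fun x => iF B R x * (wS (s1 + 9) (p x) *
    (eF P rs lam x ^ 2 * hs p x))) := c.iAQ R c.hsc K (hs_nonneg p) c.hsK

lemma iQ (R : ℝ) : Integrable (fun x => iF B R x * (wS (s1 + 9) (p x) *
    (eF P rs lam x ^ 2 * (1 - gs p x)))) :=
  c.iAQ R (continuous_const.sub c.gsc) 1 c.one_sub_nonneg (fun x => by linarith [gs_nonneg p x])

/-- `∫ W q g ≤ ε Q + ε vol`. -/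
lemma Qg_le : (∫ x, wS (s1 + 9) (p x) * ((1 - gs p x) * gF h rs e C lam x))
    ≤ ε * (∫ x, iF B L0 x * (wS (s1 + 9) (p x) * (eF P rs lam x ^ 2 * (1 - gs p x))))
      + ε * vol B lam L0 := by
  have hε := c.ε0
  unfold vol
  rw [← integral_const_mul, ← integral_const_mul, ← integral_add ((c.iQ _).const_mul _)
    ((c.vol_int _).const_mul _)]
  apply integral_mono (c.iQg _) (((c.iQ _).const_mul _).add ((c.vol_int _).const_mul _))
  intro x
  show wS (s1 + 9) (p x) * ((1 - gs p x) * gF h rs e C lam x)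
    ≤ ε * (iF B L0 x * (wS (s1 + 9) (p x) * (eF P rs lam x ^ 2 * (1 - gs p x))))
      + ε * (iN B L0 x * Gw lam x ^ 2)
  have a3 := wS_nonneg (s1 + 9) (p x)
  have a4 := wS_le_one (s1 + 9) (p x)
  have a5 := c.one_sub_nonneg x
  have a9 := gs_nonneg p x
  have a6 : gF h rs e C lam x ≤ ε * eF P rs lam x ^ 2 := by
    have := c.hP (rs x) (c.rs0 x)
    unfold gF eF
    calc Gw lam x ^ 2 * h ((1 + e) * (rs x + 1) + C) ≤ Gw lam x ^ 2 * (ε * P (rs x) ^ 2) := by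
          gcongr
      _ = _ := by ring
  have a7 := c.eFb2 x
  have a8 := iF_add_iN B L0 x
  have b1 := iF_nonneg B L0 x
  have b2 := iN_nonneg B L0 x
  have b3 : 0 ≤ eF P rs lam x ^ 2 := sq_nonneg _
  calc wS (s1 + 9) (p x) * ((1 - gs p x) * gF h rs e C lam x)
      ≤ wS (s1 + 9) (p x) * ((1 - gs p x) * (ε * eF P rs lam x ^ 2)) := by gcongr
    _ = (iF B L0 x + iN B L0 x) * (wS (s1 + 9) (p x) * ((1 - gs p x) * (ε * eF P rs lam x ^ 2))) := by
        rw [a8, one_mul]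
    _ = ε * (iF B L0 x * (wS (s1 + 9) (p x) * (eF P rs lam x ^ 2 * (1 - gs p x))))
        + iN B L0 x * (wS (s1 + 9) (p x) * ((1 - gs p x) * (ε * eF P rs lam x ^ 2))) := by ring
    _ ≤ ε * (iF B L0 x * (wS (s1 + 9) (p x) * (eF P rs lam x ^ 2 * (1 - gs p x))))
        + iN B L0 x * (1 * (1 * (ε * Gw lam x ^ 2))) := by
        gcongr
        linarith
    _ = _ := by ring

open Classical in
/-- `XS ≤ X0`. -/
lemma XS_le : (∫ x, wS s1 (p x) * (gs p x * gF h rs e C lam x))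
    ≤ ∫ x, (if |p x| < s1 then 1 else 0) * (wn p x * h ((1 + e) * ch x + C) * Gw lam x ^ 2) := by
  have he := c.e0
  have hch := c.chm
  have hhc := c.hc.continuous
  have hw := c.wnc
  have hG := H586.Gw_continuous lam
  have hp := c.pc.continuous
  have harg : ∀ x, 0 ≤ (1 + e) * ch x + C := fun x => by
    have := c.ch0 x; have := c.C1; positivity
  have i0 : Integrable (fun x => (if |p x| < s1 then (1:ℝ) else 0)
      * (wn p x * h ((1 + e) * ch x + C) * Gw lam x ^ 2)) := by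
    apply ig c.GI _ (h 0)
    · intro x
      have a1 := c.hle _ (harg x)
      have a2 := c.h0 ((1 + e) * ch x + C)
      have a3 := wn_nonneg p x
      have a4 := c.wn1 x
      have a5 : 0 ≤ Gw lam x ^ 2 := sq_nonneg _
      have a6 := c.h00
      by_cases hx : |p x| < s1
      · rw [if_pos hx, one_mul, abs_of_nonneg (by positivity)]
        calc wn p x * h ((1 + e) * ch x + C) * Gw lam x ^ 2 ≤ 1 * h 0 * Gw lam x ^ 2 := by gcongr
          _ = _ := by ring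
      · rw [if_neg hx, zero_mul, abs_zero]; positivity
    · apply Measurable.mul
      · exact Measurable.ite (measurableSet_lt (by fun_prop) measurable_const) measurable_const
          measurable_const
      · exact (hw.measurable.mul (hhc.measurable.comp
          ((measurable_const.mul hch).add measurable_const))).mul (by fun_prop)
  apply integral_mono (c.iXG _) i0
  intro x
  show wS s1 (p x) * (gs p x * gF h rs e C lam x) ≤ (if |p x| < s1 then (1:ℝ) else 0)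
      * (wn p x * h ((1 + e) * ch x + C) * Gw lam x ^ 2)
  have a1 := wS_nonneg s1 (p x)
  have a2 := wS_le_one s1 (p x)
  have a5 : 0 ≤ Gw lam x ^ 2 := sq_nonneg _
  by_cases hx : |p x| < s1
  · rw [if_pos hx]
    have h2 := c.rsc x (by linarith)
    have h3 : h ((1 + e) * (rs x + 1) + C) ≤ h ((1 + e) * ch x + C) := by
      apply c.ha (harg x) (c.arg0 x)
      have := (abs_le.mp h2).1
      have h4 : (1 + e) * ch x ≤ (1 + e) * (rs x + 1) := by gcongr; linarith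
      linarith
    have h4 := c.gs_le_wn x
    have h5 := gs_nonneg p x
    have h6 := c.h0 ((1 + e) * ch x + C)
    have h7 := c.h0 ((1 + e) * (rs x + 1) + C)
    have h8 := wn_nonneg p x
    unfold gF
    calc wS s1 (p x) * (gs p x * (Gw lam x ^ 2 * h ((1 + e) * (rs x + 1) + C)))
        ≤ 1 * (wn p x * (Gw lam x ^ 2 * h ((1 + e) * ch x + C))) := by gcongr
      _ = _ := by ring
  · rw [wS_zero (not_lt.mp hx), if_neg hx]; simp

lemma Ph_nonneg (t : ℝ) (ht : 0 ≤ t) : 0 ≤ Ph h R1 t := by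
  unfold Ph
  by_cases h1 : t ≤ R1
  · apply intervalIntegral.integral_nonneg h1
    intro u hu
    exact mul_nonneg (by linarith [hu.1]) (c.h0 u)
  · push Not at h1
    rw [intervalIntegral.integral_symm]
    have : ∫ r in R1..t, (r - t) * h r = 0 := by
      rw [intervalIntegral.integral_zero_ae]
      refine Eventually.of_forall fun r hr => ?_
      rw [Set.uIoc_of_le h1.le] at hr
      rw [c.hz r hr.1.le, mul_zero]
    rw [this, neg_zero]

open Classical in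
/-- the right side of FIALA. -/
lemma F_le (hC0 : 0 ≤ C0) (hδ : δ ≤ 1) :
    (∫ x, (if |p x| < s1 + 8 ∧ Far B L0 x then 1 else 0) *
          ((7 / 2 * hs p x + C0 * (lap p x ^ 2 + ∑ i, (∑ j, pd i (pd j p) x * pd j p x) ^ 2)) *
            Ph h R1 (max 0 ((1 - e) * ch x - C)) * Gw lam x ^ 2))
    ≤ 135 / 1000 * (7 / 2 * (∫ x, iF B L0 x * (wS (s1 + 9) (p x) * (eF P rs lam x ^ 2 * hs p x)))
      + C0 * (4 + CH) * δ *
        ∫ x, iF B L0 x * (wS (s1 + 9) (p x) * (eF P rs lam x ^ 2 * (1 - gs p x)))) := by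
  have hCH := c.CH0
  rw [mul_add, ← integral_const_mul, ← integral_const_mul, ← integral_const_mul,
    ← integral_const_mul, ← integral_add (((c.iA _).const_mul _).const_mul _)
      (((c.iQ _).const_mul _).const_mul _)]
  apply integral_mono_of_nonneg
  · refine Eventually.of_forall fun x => ?_
    show 0 ≤ (if |p x| < s1 + 8 ∧ Far B L0 x then (1:ℝ) else 0) *
          ((7 / 2 * hs p x + C0 * (lap p x ^ 2 + ∑ i, (∑ j, pd i (pd j p) x * pd j p x) ^ 2)) *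
            Ph h R1 (max 0 ((1 - e) * ch x - C)) * Gw lam x ^ 2)
    have a1 := c.Ph_nonneg (max 0 ((1 - e) * ch x - C)) (le_max_left _ _)
    have a2 := hs_nonneg p x
    have a3 : 0 ≤ ∑ i, (∑ j, pd i (pd j p) x * pd j p x) ^ 2 :=
      Finset.sum_nonneg fun i _ => sq_nonneg _
    split_ifs <;> positivity
  · exact (((c.iA _).const_mul _).const_mul _).add (((c.iQ _).const_mul _).const_mul _)
  · refine Eventually.of_forall fun x => ?_
    show (if |p x| < s1 + 8 ∧ Far B L0 x then (1:ℝ) else 0) *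
          ((7 / 2 * hs p x + C0 * (lap p x ^ 2 + ∑ i, (∑ j, pd i (pd j p) x * pd j p x) ^ 2)) *
            Ph h R1 (max 0 ((1 - e) * ch x - C)) * Gw lam x ^ 2)
      ≤ 135 / 1000 * (7 / 2 * (iF B L0 x * (wS (s1 + 9) (p x) * (eF P rs lam x ^ 2 * hs p x))))
        + 135 / 1000 * (C0 * (4 + CH) * δ *
          (iF B L0 x * (wS (s1 + 9) (p x) * (eF P rs lam x ^ 2 * (1 - gs p x)))))
    have b1 := hs_nonneg p x
    have b2 := c.one_sub_nonneg x
    have b3 : 0 ≤ eF P rs lam x ^ 2 := sq_nonneg _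
    have b4 := wS_nonneg (s1 + 9) (p x)
    by_cases hx : |p x| < s1 + 8 ∧ Far B L0 x
    · rw [if_pos hx, iF_of hx.2, wS_one (by linarith [hx.1]), one_mul]
      have hx9 : |p x| ≤ s1 + 9 := by linarith [hx.1]
      have h1 := c.lapb x
      have h2 := c.hgb x
      have h3 := c.qs x hx9 hx.2
      have h4 : lap p x ^ 2 ≤ 4 * (1 - gs p x) ^ 2 := by
        rw [← sq_abs]; nlinarith [abs_nonneg (lap p x)]
      have hδ0 : 0 ≤ δ := b2.trans h3
      have h5 : lap p x ^ 2 + ∑ i, (∑ j, pd i (pd j p) x * pd j p x) ^ 2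
          ≤ (4 + CH) * (δ * (1 - gs p x)) := by
        have : (1 - gs p x) ^ 2 ≤ δ * (1 - gs p x) := by nlinarith
        calc _ ≤ 4 * (1 - gs p x) ^ 2 + CH * (1 - gs p x) ^ 2 := add_le_add h4 h2
          _ = (4 + CH) * (1 - gs p x) ^ 2 := by ring
          _ ≤ _ := by gcongr
      have h6 := c.PhP (rs x) (ch x) (c.rs0 x) (by have := (abs_le.mp (c.rsc x hx9)).2; linarith)
      have a1 := c.Ph_nonneg (max 0 ((1 - e) * ch x - C)) (le_max_left _ _)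
      have a3 : 0 ≤ ∑ i, (∑ j, pd i (pd j p) x * pd j p x) ^ 2 :=
        Finset.sum_nonneg fun i _ => sq_nonneg _
      have a5 : 0 ≤ Gw lam x ^ 2 := sq_nonneg _
      calc (7 / 2 * hs p x + C0 * (lap p x ^ 2 + ∑ i, (∑ j, pd i (pd j p) x * pd j p x) ^ 2)) *
            Ph h R1 (max 0 ((1 - e) * ch x - C)) * Gw lam x ^ 2
          ≤ (7 / 2 * hs p x + C0 * ((4 + CH) * (δ * (1 - gs p x)))) *
            (135 / 1000 * P (rs x) ^ 2) * Gw lam x ^ 2 := by gcongr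
        _ = _ := by unfold eF; ring
    · rw [if_neg hx, zero_mul]
      have b5 := iF_nonneg B L0 x
      by_cases hw : wS (s1 + 9) (p x) = 0
      · rw [hw]; simp
      · by_cases hF : Far B L0 x
        · have h3 := c.qs x (lt_of_wS hw).le hF
          have hδ0 : 0 ≤ δ := b2.trans h3
          positivity
        · rw [iF_not hF]; simp

/-- the left side of the stability inequality. -/
lemma S_ge (hδ : δ ≤ 1 / 2) (hc2 : 0 ≤ c2) (hW : 2 * W ≤ L0) :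
    (1 - δ) * ((∫ x, iF B L0 x * (wS (s1 + 9) (p x) * (eF P rs lam x ^ 2 * hs p x))) / 2
      + c2 * ∫ x, iF B L0 x * (wS (s1 + 9) (p x) * (eF P rs lam x ^ 2 * (1 - gs p x))))
    ≤ ∫ x, iF B (2 * W) x * (wS (s1 + 9) (p x) * wn p x *
        eF P rs lam x ^ 2 * (hs p x / 2 + c2 * (1 - gs p x))) := by
  have he := c.eFc
  have hWc := c.Wc (s1 + 9)
  have hw := c.wnc
  have hh := c.hsc
  have hg := c.gsc
  have hK := c.K0
  have i1 : Integrable (fun x => iF B (2 * W) x * (wS (s1 + 9) (p x) * wn p x *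
        eF P rs lam x ^ 2 * (hs p x / 2 + c2 * (1 - gs p x)))) := by
    apply ig c.GI ((iF_meas B _).mul (by fun_prop)) (K / 2 + c2)
    intro x
    have a1 := iF_nonneg B (2 * W) x
    have a2 := iF_le_one B (2 * W) x
    have a3 := wS_nonneg (s1 + 9) (p x)
    have a4 := wS_le_one (s1 + 9) (p x)
    have a5 := wn_nonneg p x
    have a6 := c.wn1 x
    have a7 := c.eFb2 x
    have a9 := hs_nonneg p x
    have a10 := c.hsK x
    have a11 := c.one_sub_nonneg x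
    have a12 := gs_nonneg p x
    have a13 : hs p x / 2 + c2 * (1 - gs p x) ≤ K / 2 + c2 := by nlinarith
    have a8 : 0 ≤ iF B (2 * W) x * (wS (s1 + 9) (p x) * wn p x *
        eF P rs lam x ^ 2 * (hs p x / 2 + c2 * (1 - gs p x))) := by positivity
    show |iF B (2 * W) x * (wS (s1 + 9) (p x) * wn p x *
        eF P rs lam x ^ 2 * (hs p x / 2 + c2 * (1 - gs p x)))| ≤ _
    rw [abs_of_nonneg a8]
    calc iF B (2 * W) x * (wS (s1 + 9) (p x) * wn p x *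
        eF P rs lam x ^ 2 * (hs p x / 2 + c2 * (1 - gs p x)))
        ≤ 1 * (1 * 1 * Gw lam x ^ 2 * (K / 2 + c2)) := by gcongr
      _ = _ := by ring
  have e1 : (1 - δ) * ((∫ x, iF B L0 x * (wS (s1 + 9) (p x) * (eF P rs lam x ^ 2 * hs p x))) / 2
      + c2 * ∫ x, iF B L0 x * (wS (s1 + 9) (p x) * (eF P rs lam x ^ 2 * (1 - gs p x))))
      = ∫ x, ((1 - δ) / 2 * (iF B L0 x * (wS (s1 + 9) (p x) * (eF P rs lam x ^ 2 * hs p x)))
        + (1 - δ) * c2 * (iF B L0 x * (wS (s1 + 9) (p x) * (eF P rs lam x ^ 2 * (1 - gs p x))))) := by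
    rw [integral_add ((c.iA _).const_mul _) ((c.iQ _).const_mul _), integral_const_mul,
      integral_const_mul]
    ring
  rw [e1]
  apply integral_mono (((c.iA _).const_mul _).add ((c.iQ _).const_mul _)) i1
  intro x
  show (1 - δ) / 2 * (iF B L0 x * (wS (s1 + 9) (p x) * (eF P rs lam x ^ 2 * hs p x)))
        + (1 - δ) * c2 * (iF B L0 x * (wS (s1 + 9) (p x) * (eF P rs lam x ^ 2 * (1 - gs p x))))
    ≤ iF B (2 * W) x * (wS (s1 + 9) (p x) * wn p x *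
        eF P rs lam x ^ 2 * (hs p x / 2 + c2 * (1 - gs p x)))
  have a3 := wS_nonneg (s1 + 9) (p x)
  have a5 := wn_nonneg p x
  have a9 := hs_nonneg p x
  have a11 := c.one_sub_nonneg x
  have a14 : 0 ≤ eF P rs lam x ^ 2 := sq_nonneg _
  by_cases hF : Far B L0 x
  · have hF2 : Far B (2 * W) x := fun b hb => hW.trans (hF b hb)
    rw [iF_of hF, iF_of hF2, one_mul, one_mul, one_mul]
    by_cases hw : wS (s1 + 9) (p x) = 0
    · rw [hw]; simp
    have h3 := c.qs x (lt_of_wS hw).le hF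
    have h4 := c.gs_le_wn x
    have h5 : 1 - δ ≤ wn p x := by linarith
    calc (1 - δ) / 2 * (wS (s1 + 9) (p x) * (eF P rs lam x ^ 2 * hs p x))
        + (1 - δ) * c2 * (wS (s1 + 9) (p x) * (eF P rs lam x ^ 2 * (1 - gs p x)))
        = wS (s1 + 9) (p x) * (1 - δ) * eF P rs lam x ^ 2 * (hs p x / 2 + c2 * (1 - gs p x)) := by
          ring
      _ ≤ _ := by gcongr
  · rw [iF_not hF]
    have := iF_nonneg B (2 * W) x
    simp only [zero_mul, mul_zero, add_zero]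
    positivity

end Ctx

/-- the final arithmetic. -/
lemma core {N A Q X XG XS X0 Qg V V2 SL TT KK Fi F0 c1 σ κ v1 C3 : ℝ}
    (hN : 0 ≤ N) (hA : 0 ≤ A) (hQ : 0 ≤ Q) (hX : 0 ≤ X) (hXG : 0 ≤ XG) (hX0 : 0 ≤ X0)
    (hQg : 0 ≤ Qg) (hV : 0 ≤ V) (hV2 : 0 ≤ V2) (hv1 : 0 ≤ v1)
    (hσ0 : 0 < σ) (hσ1 : σ ≤ 1) (hκ : 0 ≤ κ) (hl : 0 < lam) (hl1 : lam ≤ 1 / 100000)
    (hε : 0 < ε) (hε1 : ε ≤ 1 / 100000) (hε2 : ε ≤ c2 / 100) (hδ0 : 0 ≤ δ) (hδ : δ ≤ 1 / 100)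
    (hc2 : 0 < c2) (hC3 : C3 * δ ≤ c2) (hC : 0 ≤ C)
    (H1 : c1 / 10000 * N + σ * SL ≤ (1 + 1 / 1000) * σ * TT + κ * KK)
    (H2 : (1 - δ) * (A / 2 + c2 * Q) ≤ SL)
    (H3 : TT ≤ (1 + 1 / 1000) * (1 + 10 * (1 / 1000) + ε) * X + ((1 + 1 / 1000) * v1
      + 1001 * lam ^ 2 * V))
    (H4 : KK ≤ V) (H5 : X ≤ XG + Qg)
    (H6 : XG ≤ 2017 / 1999 * XS + 10 * (2 * Qg + (2 * lam + 2 * ε) * (XG + Qg) + 2 * v1))
    (H7 : Qg ≤ ε * Q + ε * V2) (H8 : XS ≤ X0) (H9 : X0 ≤ C * F0 * N + Fi)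
    (H10 : Fi ≤ 135 / 1000 * (7 / 2 * A + C3 * δ * Q)) (H11 : F0 ≤ ε) :
    c1 / 10000 * N ≤ 2 * C * ε * N + 25 * ε * V2 + 25 * v1 + 1100 * lam ^ 2 * V + κ * V := by
  have e1 : (2 * lam + 2 * ε) * (XG + Qg) ≤ 1 / 25000 * (XG + Qg) := by
    apply mul_le_mul_of_nonneg_right _ (by positivity)
    linarith
  have e2 : X ≤ 10096 / 10000 * X0 + 23 * Qg + 21 * v1 := by linarith
  have e3 : (1 + 1 / 1000) * (1 + 10 * (1 / 1000) + ε) * X ≤ 10111 / 10000 * X := by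
    apply mul_le_mul_of_nonneg_right _ hX
    nlinarith
  have e4 : TT ≤ 10209 / 10000 * X0 + 234 / 10 * Qg + 224 / 10 * v1 + 1001 * lam ^ 2 * V := by
    linarith
  have e5 : (1 + 1 / 1000) * TT ≤ 1022 / 1000 * X0 + 24 * Qg + 24 * v1 + 1100 * lam ^ 2 * V := by
    have : 0 ≤ lam ^ 2 * V := by positivity
    linarith
  have e6 : C * F0 * N ≤ C * ε * N := by gcongr
  have e7 : C3 * δ * Q ≤ c2 * Q := mul_le_mul_of_nonneg_right hC3 hQ
  have e8 : ε * Q ≤ c2 / 100 * Q := mul_le_mul_of_nonneg_right hε2 hQ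
  have hcQ : 0 ≤ c2 * Q := by positivity
  have hCN : 0 ≤ C * ε * N := by positivity
  have hεV : 0 ≤ ε * V2 := by positivity
  have hlV : 0 ≤ lam ^ 2 * V := by positivity
  have e9 : (1 + 1 / 1000) * TT ≤ 483 / 1000 * A + 138 / 1000 * (c2 * Q) + 24 / 100 * (c2 * Q)
      + 1022 / 1000 * (C * ε * N) + 24 * (ε * V2) + 24 * v1 + 1100 * lam ^ 2 * V := by
    linarith
  have e10 : (1 - δ) * (A / 2 + c2 * Q) ≥ 99 / 100 * (A / 2 + c2 * Q) := by
    apply mul_le_mul_of_nonneg_right _ (by positivity)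
    linarith
  have e11 : (1 + 1 / 1000) * TT - SL ≤ 2 * C * ε * N + 25 * ε * V2 + 25 * v1
      + 1100 * lam ^ 2 * V := by linarith
  have e12 : σ * ((1 + 1 / 1000) * TT - SL) ≤ 2 * C * ε * N + 25 * ε * V2 + 25 * v1
      + 1100 * lam ^ 2 * V := by
    have h0 : 0 ≤ 2 * C * ε * N + 25 * ε * V2 + 25 * v1 + 1100 * lam ^ 2 * V := by positivity
    calc σ * ((1 + 1 / 1000) * TT - SL) ≤ σ * (2 * C * ε * N + 25 * ε * V2 + 25 * v1
        + 1100 * lam ^ 2 * V) := by gcongr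
      _ ≤ 1 * (2 * C * ε * N + 25 * ε * V2 + 25 * v1 + 1100 * lam ^ 2 * V) := by gcongr
      _ = _ := one_mul _
  have e13 : κ * KK ≤ κ * V := by gcongr
  linarith

lemma sig0_pos : 0 < sig0 := by unfold sig0; positivity
lemma sig0_le_one : sig0 ≤ 1 := by
  unfold sig0
  have h1 : Real.sqrt 2 ≤ 3 / 2 := by
    rw [show (3:ℝ) / 2 = Real.sqrt ((3 / 2) ^ 2) by rw [Real.sqrt_sq (by norm_num)]]
    exact Real.sqrt_le_sqrt (by norm_num)
  linarith

/-- the context for `p = phi u`. -/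
lemma mk_ctx {u : R3 → ℝ} (hu : HS u)
    (hAL : ContDiff ℝ 2 (phi u) ∧ (∀ x, gs (phi u) x ≤ 1) ∧
      (∀ x, 0 ≤ qq u x) ∧ ContDiff ℝ 1 (qq u) ∧
      (∀ x, lap (phi u) x = - (Real.sqrt 2 * u x * qq u x)) ∧
      (∀ x, ∑ i, (∑ j, pd i (pd j (phi u)) x * pd j (phi u) x) ^ 2 = gs (qq u) x / 4) ∧
      (∀ x, 1 / 2 ≤ rr u x → hs (phi u) x ≤ a2 u x + 2 * gs (qq u) x))
    (hCH : 0 < CH) (hHA : ∀ x,
      hs (phi u) x ≤ CH * qq u x ∧ gs (qq u) x ≤ CH * qq u x ^ 2 ∧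
      (qq u x ≤ 1 / 2 → a2 u x ≤ CH * qq u x ∧ hh u x ^ 2 ≤ CH * qq u x ^ 2))
    (hq : ∀ x, |phi u x| ≤ 1000 + 12 → Far B 1 x → qq u x ≤ δ)
    (hε0 : 0 < ε) (hR1 : 1 ≤ R1) (hC : 1 ≤ C) (hl0 : 0 < lam) (hL01 : 1 ≤ L0)
    (hT : 4 * R1 + 2 ≤ T) (hGI : Integrable (fun x : R3 => Gw lam x ^ 2))
    (hm : Measurable ch) (hch0 : ∀ x, 0 ≤ ch x)
    (hchF : ∀ x R, R ≤ T → ch x < R → ¬ Far B (R + 2 * L0) x)
    (hrc : ContDiff ℝ 1 rs) (hrs0 : ∀ x, 0 ≤ rs x) (hKr0 : 0 ≤ Kr) (hKr : ∀ x, gs rs x ≤ Kr ^ 2)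
    (hrl : ∀ x, |phi u x| ≤ 1000 + 10 - 1 / 4 → gs rs x ≤ 1)
    (hrsc : ∀ x, |phi u x| ≤ 1000 + 10 - 1 / 4 → |rs x - ch x| ≤ 1)
    (hhc : ContDiff ℝ 1 h) (hh0 : ∀ t, 0 ≤ h t) (hha : AntitoneOn h (Set.Ici 0))
    (hhz : ∀ t, R1 ≤ t → h t = 0)
    (hhd : ∀ t, 0 ≤ t → |deriv h t| ≤ ε * h t + ε / R1 ^ 3)
    (hPc : ContDiff ℝ 1 P) (hP0 : ∀ t, 0 ≤ P t ∧ P t ≤ 1)
    (hPz : ∀ t, 4 * R1 ≤ t → P t = 0) (hPd : ∀ t, |deriv P t| ≤ ε)
    (hPd2 : ∀ t, 0 ≤ t → deriv P t ^ 2 ≤ (1 + 10 * (1 / 1000) + ε)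
      * h ((1 + 1 / 1000) * (t + 1) + C) + ε / R1 ^ 3)
    (hhP : ∀ t, 0 ≤ t → h ((1 + 1 / 1000) * (t + 1) + C) ≤ ε * P t ^ 2)
    (hPhP : ∀ t t', 0 ≤ t → t - 1 ≤ t' →
      Ph h R1 (max 0 ((1 - 1 / 1000) * t' - C)) ≤ 135 / 1000 * P t ^ 2) :
    Ctx (phi u) rs ch B h P 1000 L0 (1 / 1000) C ε R1 T lam δ CH CH Kr := by
  obtain ⟨hpc, hp1, hq0, hqc, hlap, hhg, -⟩ := hAL
  refine ⟨hpc, hp1, ?_, ?_, ?_, ?_, hm, hch0, hchF, hrc, hrs0,
    hKr, ?_, ?_, hhc, hh0, hha, hhz, hhd, hPc, hP0, hPz, hPd, hPd2, hhP, hPhP, by norm_num,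
    le_rfl, hC, hε0, hR1, hT, hl0, hL01, by norm_num, hCH.le, hCH.le, hKr0, hGI⟩
  · intro x
    rw [hlap, abs_neg, abs_mul, abs_mul]
    have h1 := hu.lt x
    have h2 : |Real.sqrt 2| ≤ 2 := by
      rw [abs_of_nonneg (Real.sqrt_nonneg _)]
      rw [Real.sqrt_le_left (by norm_num)]; norm_num
    have h3 : 0 ≤ qq u x := hq0 x
    rw [abs_of_nonneg h3]
    calc |Real.sqrt 2| * |u x| * qq u x ≤ 2 * 1 * qq u x := by gcongr
      _ = 2 * (1 - gs (phi u) x) := by unfold qq; ring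
  · intro x
    rw [hhg]
    have h1 := (hHA x).2.1
    have h2 : 0 ≤ CH * qq u x ^ 2 := by positivity
    show gs (qq u) x / 4 ≤ CH * qq u x ^ 2
    linarith only [h1, h2]
  · intro x
    have h1 := (hHA x).1
    have h2 := H586.qq_le_one u x
    have h3 := hq0 x
    nlinarith only [h1, h2, h3, hCH]
  · intro x hx hF
    show qq u x ≤ δ
    exact hq x (by linarith only [hx]) (fun b hb => hL01.trans (hF b hb))
  · intro x hx
    exact hrl x (by linarith only [hx])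
  · intro x hx
    exact hrsc x (by linarith only [hx])

open Classical in
/-- the final step: all the integral inequalities give `N ≤ 0`. -/
lemma finish {u : R3 → ℝ} {κ c1 : ℝ} {B : Set R3}
    (ctx : Ctx (phi u) rs ch B h P 1000 L0 (1 / 1000) C ε R1 T lam δ CH CH Kr)
    (hLE : StLEV) (hC0 : 0 < C0) (hc2 : 0 < c2) (hδ0 : 0 ≤ δ) (hδ3 : δ ≤ 1 / 100)
    (hδ4 : C0 * (4 + CH) * δ ≤ c2) (hκ0 : 0 ≤ κ) (hl2 : lam ≤ 1 / 100000)
    (hε1 : ε ≤ 1 / 100000) (hε2 : ε ≤ c2 / 100) (hW : 2 * W ≤ L0)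
    (hPh0 : Ph h R1 0 ≤ ε)
    (H1 : c1 / 10000 * ∑' b : B, Gw lam b ^ 2
      + sig0 * (∫ x, iF B (2 * W) x * (wS (1000 + 9) (phi u x) * rr u x *
        eF P rs lam x ^ 2 * (hs (phi u) x / 2 + c2 * qq u x)))
      ≤ (1 + 1 / 1000) * sig0 * (∫ x, wS (1000 + 9) (phi u x) * rr u x * gs (eF P rs lam) x)
      + κ * ∫ x, wS (1000 + 9) (phi u x) * rr u x * eF P rs lam x ^ 2)
    (H9 : (∫ x, (if |phi u x| < 1000 then 1 else 0) *
      (wn (phi u) x * h ((1 + 1 / 1000) * ch x + C) * Gw lam x ^ 2))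
      ≤ C * Ph h R1 0 * ∑' b : B, Gw lam b ^ 2
      + ∫ x, (if |phi u x| < 1000 + 8 ∧ Far B L0 x then 1 else 0) *
          ((7 / 2 * hs (phi u) x + C0 * (lap (phi u) x ^ 2
            + ∑ i, (∑ j, pd i (pd j (phi u)) x * pd j (phi u) x) ^ 2)) *
            Ph h R1 (max 0 ((1 - 1 / 1000) * ch x - C)) * Gw lam x ^ 2)) :
    c1 / 10000 * ∑' b : B, Gw lam b ^ 2 ≤ 2 * C * ε * ∑' b : B, Gw lam b ^ 2
      + 25 * ε * vol B lam L0 + 25 * (ε / R1 ^ 3 * vol B lam (4 * R1 + 2 + 2 * L0))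
      + 1100 * lam ^ 2 * vol B lam (4 * R1 + 2 + 2 * L0)
      + κ * vol B lam (4 * R1 + 2 + 2 * L0) := by
  have hR1 := ctx.R11
  have hε := ctx.ε0
  have hl := ctx.l0
  have hv1 : 0 ≤ ε / R1 ^ 3 * vol B lam (4 * R1 + 2 + 2 * L0) := by
    have := ctx.vol_nonneg (4 * R1 + 2 + 2 * L0)
    positivity
  have hN0 : 0 ≤ ∑' b : B, Gw lam b ^ 2 := tsum_nonneg fun b => sq_nonneg _
  have hA : 0 ≤ ∫ x, iF B L0 x * (wS (1000 + 9) (phi u x) * (eF P rs lam x ^ 2 * hs (phi u) x)) :=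
    integral_nonneg fun x => mul_nonneg (iF_nonneg _ _ _) (mul_nonneg (wS_nonneg _ _)
      (mul_nonneg (sq_nonneg _) (hs_nonneg _ _)))
  have hQ : 0 ≤ ∫ x, iF B L0 x * (wS (1000 + 9) (phi u x) *
      (eF P rs lam x ^ 2 * (1 - gs (phi u) x))) :=
    integral_nonneg fun x => mul_nonneg (iF_nonneg _ _ _) (mul_nonneg (wS_nonneg _ _)
      (mul_nonneg (sq_nonneg _) (ctx.one_sub_nonneg _)))
  have hX : 0 ≤ ∫ x, wS (1000 + 9) (phi u x) * (wn (phi u) x * gF h rs (1 / 1000) C lam x) :=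
    integral_nonneg fun x => mul_nonneg (wS_nonneg _ _) (mul_nonneg (wn_nonneg _ _) (ctx.gF0 x))
  have hXG : 0 ≤ ∫ x, wS (1000 + 9) (phi u x) * (gs (phi u) x * gF h rs (1 / 1000) C lam x) :=
    integral_nonneg fun x => mul_nonneg (wS_nonneg _ _) (mul_nonneg (gs_nonneg _ _) (ctx.gF0 x))
  have hQg : 0 ≤ ∫ x, wS (1000 + 9) (phi u x) * ((1 - gs (phi u) x) * gF h rs (1 / 1000) C lam x) :=
    integral_nonneg fun x => mul_nonneg (wS_nonneg _ _) (mul_nonneg (ctx.one_sub_nonneg _)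
      (ctx.gF0 x))
  have hX0 : 0 ≤ ∫ x, (if |phi u x| < 1000 then (1:ℝ) else 0) *
      (wn (phi u) x * h ((1 + 1 / 1000) * ch x + C) * Gw lam x ^ 2) := by
    apply integral_nonneg
    intro x
    have a1 := wn_nonneg (phi u) x
    have a2 := ctx.h0 ((1 + 1 / 1000) * ch x + C)
    show 0 ≤ (if |phi u x| < 1000 then (1:ℝ) else 0) *
      (wn (phi u) x * h ((1 + 1 / 1000) * ch x + C) * Gw lam x ^ 2)
    split_ifs <;> positivity
  have H2 := ctx.S_ge (c2 := c2) (W := W) (by linarith only [hδ3]) hc2.le hW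
  have H3 := ctx.T_le
  have H4 := ctx.K_le
  have H5 := ctx.X_le
  have H6 := ctx.XG_le hLE
  have H7 := ctx.Qg_le
  have H8 := ctx.XS_le
  have H10 := ctx.F_le (C0 := C0) hC0.le (by linarith only [hδ3])
  have hβ : ((2:ℝ) * (1000 + 9) - 1) / (2 * 1000 - 1) = 2017 / 1999 := by norm_num
  rw [hβ] at H6
  refine core hN0 hA hQ hX hXG hX0 hQg (ctx.vol_nonneg _) (ctx.vol_nonneg _) hv1 sig0_pos
    sig0_le_one hκ0 hl hl2 hε hε1 hε2 hδ0 hδ3 hc2 hδ4 (by linarith only [ctx.C1]) H1 H2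
    (H3.trans (le_of_eq (by ring))) H4 H5 (H6.trans (le_of_eq (by ring))) H7 H8 H9 H10 hPh0

lemma pick2 {a b : ℝ} (ha : 0 < a) (hb : 0 < b) : ∃ t, 0 < t ∧ t ≤ a ∧ t ≤ b :=
  ⟨min a b, lt_min ha hb, min_le_left _ _, min_le_right _ _⟩

lemma pick4 {a b c d : ℝ} (ha : 0 < a) (hb : 0 < b) (hc : 0 < c) (hd : 0 < d) :
    ∃ t, 0 < t ∧ t ≤ a ∧ t ≤ b ∧ t ≤ c ∧ t ≤ d := by
  obtain ⟨s, h1, h2, h3⟩ := pick2 ha hb
  obtain ⟨r, g1, g2, g3⟩ := pick2 hc hd
  obtain ⟨t, f1, f2, f3⟩ := pick2 h1 g1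
  exact ⟨t, f1, f2.trans h2, f2.trans h3, f3.trans g2, f3.trans g3⟩

/-- the last arithmetic step. -/
lemma last {N c1 C ε V2 V lam κ Cv L0 R1 RR : ℝ} (hN : 0 ≤ N) (hc1 : 0 < c1) (hC : 0 ≤ C)
    (hε : 0 < ε) (hCv : 0 < Cv) (hR1 : 1 ≤ R1) (hL0 : 1 ≤ L0) (hRR : RR = 4 * R1 + 2 + 2 * L0)
    (hV2 : V2 ≤ Cv * L0 ^ 3 * N) (hV : V ≤ Cv * RR ^ 3 * N)
    (hε3 : ε * (2 * C + 25 * Cv * L0 ^ 3 + 25 * Cv * (6 + 2 * L0) ^ 3) ≤ c1 / 100000)
    (hl0 : 0 < lam) (hl1 : lam ≤ 1) (hl6 : 1100 * lam * (Cv * RR ^ 3) ≤ c1 / 100000)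
    (hκ0 : 0 ≤ κ) (hκ : κ * (Cv * RR ^ 3) ≤ c1 / 100000)
    (H : c1 / 10000 * N ≤ 2 * C * ε * N + 25 * ε * V2 + 25 * (ε / R1 ^ 3 * V)
      + 1100 * lam ^ 2 * V + κ * V) : N ≤ 0 := by
  have hR0 : 0 < R1 := by linarith only [hR1]
  have hRR0 : 0 ≤ RR := by rw [hRR]; linarith only [hR1, hL0]
  have h1 : RR ≤ R1 * (6 + 2 * L0) := by rw [hRR]; nlinarith only [hR1, hL0]
  have h2 : RR ^ 3 ≤ R1 ^ 3 * (6 + 2 * L0) ^ 3 := by
    rw [← mul_pow]; exact pow_le_pow_left₀ hRR0 h1 3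
  have a1 : ε / R1 ^ 3 * V ≤ ε * (Cv * (6 + 2 * L0) ^ 3) * N := by
    calc ε / R1 ^ 3 * V ≤ ε / R1 ^ 3 * (Cv * RR ^ 3 * N) := by gcongr
      _ ≤ ε / R1 ^ 3 * (Cv * (R1 ^ 3 * (6 + 2 * L0) ^ 3) * N) := by gcongr
      _ = _ := by field_simp
  have a2 : ε * V2 ≤ ε * (Cv * L0 ^ 3 * N) := by gcongr
  have a3 : 1100 * lam ^ 2 * V ≤ c1 / 100000 * N := by
    calc 1100 * lam ^ 2 * V ≤ 1100 * lam ^ 2 * (Cv * RR ^ 3 * N) := by gcongr
      _ = lam * (1100 * lam * (Cv * RR ^ 3)) * N := by ring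
      _ ≤ 1 * (c1 / 100000) * N := by gcongr
      _ = _ := by ring
  have a4 : κ * V ≤ c1 / 100000 * N := by
    calc κ * V ≤ κ * (Cv * RR ^ 3 * N) := by gcongr
      _ = κ * (Cv * RR ^ 3) * N := by ring
      _ ≤ _ := by gcongr
  have a5 : 2 * C * ε * N + 25 * (ε * (Cv * L0 ^ 3 * N)) + 25 * (ε * (Cv * (6 + 2 * L0) ^ 3) * N)
      ≤ c1 / 100000 * N := by
    calc 2 * C * ε * N + 25 * (ε * (Cv * L0 ^ 3 * N)) + 25 * (ε * (Cv * (6 + 2 * L0) ^ 3) * N)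
        = ε * (2 * C + 25 * Cv * L0 ^ 3 + 25 * Cv * (6 + 2 * L0) ^ 3) * N := by ring
      _ ≤ _ := by gcongr
  have a6 : c1 / 10000 * N ≤ 3 * (c1 / 100000 * N) := by linarith only [H, a1, a2, a3, a4, a5]
  have a7 : 7 / 100000 * (c1 * N) ≤ 0 := by linarith only [a6]
  have a8 : c1 * N ≤ 0 := by linarith only [a7]
  by_contra hc
  push Not at hc
  have := mul_pos hc1 hc
  linarith only [this, a8]

lemma empty_of {B : Set R3} (hs : Summable (fun b : B => Gw lam b ^ 2))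
    (h : ∑' b : B, Gw lam b ^ 2 ≤ 0) : B = ∅ := by
  by_contra hne
  obtain ⟨b, hb⟩ := Set.nonempty_iff_ne_empty.mpr hne
  have h1 : Gw lam b ^ 2 ≤ ∑' b : B, Gw lam b ^ 2 :=
    hs.le_tsum (⟨b, hb⟩ : B) (fun _ _ => sq_nonneg _)
  have h2 : 0 < Gw lam b ^ 2 := pow_pos (H586.Gw_pos lam b) 2
  linarith only [h, h1, h2]

/-- bound of `|Dη|²`. -/
lemma gs_eta_M (hr : ContDiff ℝ 1 rs) (hP : ContDiff ℝ 1 P) (hP0 : ∀ t, 0 ≤ P t ∧ P t ≤ 1)
    (hPd : ∀ t, |deriv P t| ≤ ε) (hKr : ∀ x, gs rs x ≤ Kr ^ 2) (x : R3) :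
    gs (eF P rs lam) x ≤ ((1 + 1) * (ε ^ 2 * Kr ^ 2) + (1 + 1 / 1) * lam ^ 2) * Gw lam x ^ 2 := by
  have h1 := gs_eF_le (lam := lam) hr hP one_pos x
  have h2 := hPd (rs x)
  have h3 := (hP0 (rs x)).1
  have h4 := (hP0 (rs x)).2
  have h5 := hKr x
  have h6 := gs_nonneg rs x
  have h7 : deriv P (rs x) ^ 2 ≤ ε ^ 2 := by
    rw [← sq_abs]; exact pow_le_pow_left₀ (abs_nonneg _) h2 2
  have h8 : P (rs x) ^ 2 ≤ 1 := by nlinarith only [h3, h4]
  refine h1.trans ?_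
  calc (1 + 1) * (Gw lam x ^ 2 * deriv P (rs x) ^ 2 * gs rs x)
        + (1 + 1 / 1) * (P (rs x) ^ 2 * (lam ^ 2 * Gw lam x ^ 2))
      ≤ (1 + 1) * (Gw lam x ^ 2 * ε ^ 2 * Kr ^ 2)
        + (1 + 1 / 1) * (1 * (lam ^ 2 * Gw lam x ^ 2)) := by gcongr
    _ = _ := by ring

/-- **No bad cells.** -/
theorem key (hSLAB : StSLAB2) (hFI : ASM.StFIALA) (hPR : StPROF) (hME : StMET) (hLE : StLEV)
    (hVO : StVOL) (hHA : StHAR) (hGO : StGOOD) (hAL : StALG) : StKEY := by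
  intro CX hCX
  obtain ⟨C0, hC0, hFI⟩ := hFI
  obtain ⟨e0, r1, L00, he0, hr1, hL00, hFI⟩ := hFI (1 / 1000) 1000 (by norm_num) (by norm_num)
    (by norm_num)
  obtain ⟨δ0, c2, hδ0, hc2, hS⟩ := hSLAB CX (1 / 1000) (1000 + 9) hCX (by norm_num) (by norm_num)
  obtain ⟨CH, hCH, hHA⟩ := hHA
  obtain ⟨δG, hδG, hG⟩ := hGO (1000 + 12) r1 e0 (by norm_num) hr1 he0
  obtain ⟨Cv, hCv, hV⟩ := hVO
  obtain ⟨δ, hδpos, hδ1, hδ2, hδ3, hδ4⟩ : ∃ δ, 0 < δ ∧ δ ≤ δ0 ∧ δ ≤ δG ∧ δ ≤ 1 / 100 ∧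
      C0 * (4 + CH) * δ ≤ c2 := by
    have hC3 : 0 < C0 * (4 + CH) := by positivity
    obtain ⟨t, h1, h2, h3, h4, h5⟩ := pick4 hδ0 hδG (c := 1 / 100) (d := c2 / (C0 * (4 + CH)))
      (by norm_num) (by positivity)
    refine ⟨t, h1, h2, h3, h4, ?_⟩
    rwa [le_div_iff₀ hC3, mul_comm] at h5
  refine ⟨1000 + 12, δ, by norm_num, hδpos, ?_⟩
  intro c1 hc1 u hu hX B hB hq hgain
  obtain ⟨W0, hW0, hS⟩ := hS c1 hc1
  obtain ⟨W, hWW0, hW4⟩ : ∃ W, W0 ≤ W ∧ 4 ≤ W := ⟨max W0 4, le_max_left _ _, le_max_right _ _⟩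
  obtain ⟨L0, hL0L, hL0W⟩ : ∃ L0, L00 ≤ L0 ∧ 8 * W + 1 ≤ L0 :=
    ⟨max L00 (8 * W + 1), le_max_left _ _, le_max_right _ _⟩
  have hL01 : 1 ≤ L0 := by linarith only [hW4, hL0W]
  obtain ⟨C, hC, hFI⟩ := hFI L0 hL0L
  have hC0' : 0 ≤ C := by linarith only [hC]
  obtain ⟨ε, hε0, hε1, hε2, hε3⟩ : ∃ ε, 0 < ε ∧ ε ≤ 1 / 100000 ∧ ε ≤ c2 / 100 ∧
      ε * (2 * C + 25 * Cv * L0 ^ 3 + 25 * Cv * (6 + 2 * L0) ^ 3) ≤ c1 / 100000 := by
    have hM : 0 < 2 * C + 25 * Cv * L0 ^ 3 + 25 * Cv * (6 + 2 * L0) ^ 3 := by positivity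
    obtain ⟨t, h1, h2, h3, h4, -⟩ := pick4 (a := 1 / 100000) (b := c2 / 100)
      (c := c1 / 100000 / (2 * C + 25 * Cv * L0 ^ 3 + 25 * Cv * (6 + 2 * L0) ^ 3)) (d := 1)
      (by norm_num) (by positivity) (by positivity) one_pos
    exact ⟨t, h1, h2, h3, by rwa [le_div_iff₀ hM] at h4⟩
  obtain ⟨R1, h, P, hR1, hhc, hh0, hha, hhz, hhd, hPc, hP0, hPneg, hPz, hPd, hPd2, hhP, hPh0, hPhP⟩ :=
    hPR (1 / 1000) C ε (by norm_num) le_rfl hC hε0
  obtain ⟨RR, hRR⟩ : ∃ RR, RR = 4 * R1 + 2 + 2 * L0 := ⟨_, rfl⟩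
  have hRR1 : 1 ≤ RR := by linarith only [hRR, hR1, hL01]
  have hCR : 0 < Cv * RR ^ 3 := by positivity
  obtain ⟨κ, hκ0, hκ⟩ : ∃ κ, 0 < κ ∧ κ * (Cv * RR ^ 3) ≤ c1 / 100000 :=
    ⟨c1 / 100000 / (Cv * RR ^ 3), by positivity, by rw [div_mul_cancel₀ _ hCR.ne']⟩
  obtain ⟨lam0, hlam0, hS⟩ := hS W hWW0 κ hκ0
  obtain ⟨lam, hl0, hl1, hl2, hl3, hl4, hl5, hl6⟩ : ∃ lam, 0 < lam ∧ lam ≤ lam0 ∧
      lam ≤ 1 / 100000 ∧ lam * RR ≤ 1 ∧ lam * L0 ≤ 1 ∧ lam * R1 ≤ e0 ∧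
      1100 * lam * (Cv * RR ^ 3) ≤ c1 / 100000 := by
    have hR0 : 0 < R1 := by linarith only [hR1]
    obtain ⟨s, h1, h2, h3, h4, h5⟩ := pick4 hlam0 (b := 1 / 100000) (c := 1 / RR) (d := 1 / L0)
      (by norm_num) (by positivity) (by positivity)
    obtain ⟨t, g1, g2, g3, g4, -⟩ := pick4 h1 (b := e0 / R1)
      (c := c1 / 100000 / (1100 * (Cv * RR ^ 3))) (d := 1) (by positivity) (by positivity) one_pos
    refine ⟨t, g1, g2.trans h2, g2.trans h3, ?_, ?_, ?_, ?_⟩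
    · have := g2.trans h4
      rwa [le_div_iff₀ (by positivity)] at this
    · have := g2.trans h5
      rwa [le_div_iff₀ (by positivity)] at this
    · rwa [le_div_iff₀ (by positivity)] at g3
    · rw [le_div_iff₀ (by positivity)] at g4
      linarith only [g4]
  obtain ⟨T, hT⟩ : ∃ T, T = 10 * (R1 + C) := ⟨_, rfl⟩
  have hTpos : 0 < T := by rw [hT]; linarith only [hR1, hC]
  obtain ⟨hm, hch0, hchF, rs, hrc, hrs0, ⟨K1, hK1⟩, hrl, hrsc, hrz⟩ :=
    hME (phi u) (hAL u hu).1 (hAL u hu).2.1 B hB (1000 + 10) (2 * L0) 2 T (by norm_num)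
      (by linarith only [hL01]) (by norm_num) hTpos
  obtain ⟨Kr, hKr0, hKr⟩ : ∃ Kr, 0 ≤ Kr ∧ ∀ x, gs rs x ≤ Kr ^ 2 := by
    refine ⟨|K1| + 1, by positivity, fun x => (hK1 x).trans ?_⟩
    nlinarith only [le_abs_self K1, abs_nonneg K1]
  obtain ⟨hsum, hGI, -⟩ := hV B hB 1 lam le_rfl hl0 (by linarith only [hl2])
  obtain ⟨ch, hch⟩ : ∃ ch, ch = chd (phi u) B (1000 + 10) (2 * L0) 2 T := ⟨_, rfl⟩
  rw [← hch] at hm hch0 hchF hrsc
  have ctx : Ctx (phi u) rs ch B h P 1000 L0 (1 / 1000) C ε R1 T lam δ CH CH Kr :=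
    mk_ctx hu (hAL u hu) hCH (hHA u hu) hq hε0 hR1 hC hl0 hL01
      (by rw [hT]; linarith only [hR1, hC]) hGI hm (fun x => (hch0 x).1) hchF hrc
      (fun x => (hrs0 x).1) hKr0 hKr hrl hrsc hhc hh0 hha hhz hhd hPc hP0 hPz hPd hPd2 hhP hPhP
  have H1 := hS u hu hX B hB
    (fun x hx hF => (hq x (by linarith only [hx])
      (fun b hb => le_trans (by linarith only [hW4]) (hF b hb))).trans hδ1)
    hgain lam hl0 hl1 (eF P rs lam) (eF_cd hrc hPc) (fun x => ⟨ctx.eF0 x, ctx.eFb x⟩)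
    ⟨_, gs_eta_M hrc hPc hP0 hPd hKr⟩
    (fun x hF hx => by
      have : rs x = 0 := by
        apply hrz x (by linarith only [hx])
        intro hF2
        exact hF fun b hb => le_trans (by linarith only [hL0W, hW4]) (hF2 b hb)
      unfold eF
      rw [this, hPneg 0 le_rfl, mul_one])
    (wS (1000 + 9)) (wS_cont _) (fun t => ⟨wS_nonneg _ _, wS_le_one _ _⟩)
    (fun t ht => wS_zero ht) (one_le_int_wS (by norm_num))
  have H9 := hFI (phi u) (hAL u hu).1 (hAL u hu).2.1 ⟨CH, fun x _ => ctx.hsK x⟩ B hB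
    (fun x hx hF => hG u hu x hx ((hq x hx (fun b hb => hL01.trans (hF b hb))).trans hδ2))
    h R1 hh0 hha hR1 hhz lam T hl0 hl5 (le_of_eq hT.symm)
  rw [← hch] at H9
  have hW2 : 2 * W ≤ L0 := by linarith only [hL0W, hW4]
  have Hf := finish ctx hLE hC0 hc2 hδpos.le hδ3 hδ4 hκ0.le hl2 hε1 hε2 hW2 hPh0 H1 H9
  rw [← hRR] at Hf
  have hVR : vol B lam RR ≤ Cv * RR ^ 3 * ∑' b : B, Gw lam b ^ 2 :=
    (hV B hB RR lam hRR1 hl0 hl3).2.2
  have hVL : vol B lam L0 ≤ Cv * L0 ^ 3 * ∑' b : B, Gw lam b ^ 2 :=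
    (hV B hB L0 lam hL01 hl0 hl4).2.2
  exact empty_of hsum (last (tsum_nonneg fun b => sq_nonneg _) hc1 hC0' hε0 hCv hR1 hL01 hRR
    hVL hVR hε3 hl0 (by linarith only [hl2]) hl6 hκ0.le hκ Hf)

end Vale.Agent.P134.R3K
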