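import Vale.Agent.P134.R3.Key
import Vale.Agent.P134.H967.Key
import Vale.Agent.P134.H967.Slab2
import Vale.Agent.P134.H967.Alg
import Vale.Agent.P134.H967.Good
import Vale.Agent.P134.H988.StMet
import Vale.Agent.P134.ASM.Lev
import Vale.Agent.P134.ASM.Vol
import Vale.Agent.P134.H586.StGw
import Vale.Agent.P134.PX.FinalASM
import Vale.Agent.P134.H970.Prof

set_option linter.all false

/-! P134, package R3: S3 from the localised stability inequality. -/

namespace Vale.Agent.P134.R3K

open Vale.Agent.P134

/-- **S3** from the localised stability inequality. -/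
theorem s3_of_slab (hS : LI.StSLAB) : LI.StS3 :=
  H967.s3_of_key (key (H967.slab2 hS) PX.FIALA_ASM H970.stPROF H988.stMET ASM.LEV
    (ASM.VOL_of H586.stGw) H967.stHAR H967.stGOOD H967.stALG)

end Vale.Agent.P134.R3K
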